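import Mathlib

/-!
# A crossing lemma for four points of the plane
-/

namespace Vale.Agent.P040.Rect

/-- twice the signed area of the triangle `a b c` -/
def det (a b c : ℝ × ℝ) : ℝ := (b.1 - a.1) * (c.2 - a.2) - (b.2 - a.2) * (c.1 - a.1)

/-- a point of two segments from a signed affine dependency -/
private lemma meet_of_dep (p q r s : ℝ × ℝ) (α β γ δ : ℝ) (hα : 0 < α) (hβ : 0 < β) (hγ : 0 < γ)
    (hδ : 0 < δ) (hsum : α + β = γ + δ) (h1 : α * p.1 + β * q.1 = γ * r.1 + δ * s.1)
    (h2 : α * p.2 + β * q.2 = γ * r.2 + δ * s.2) :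
    (segment ℝ p q ∩ segment ℝ r s).Nonempty := by
  have hab : 0 < α + β := by positivity
  have hcd : 0 < γ + δ := by positivity
  refine ⟨(α / (α + β)) • p + (β / (α + β)) • q, ?_, ?_⟩
  · exact ⟨α / (α + β), β / (α + β), by positivity, by positivity, by field_simp, rfl⟩
  · refine ⟨γ / (γ + δ), δ / (γ + δ), by positivity, by positivity, by field_simp, ?_⟩
    rw [← hsum]
    ext
    · simp only [Prod.fst_add, Prod.smul_fst, smul_eq_mul]
      field_simp
      linarith
    · simp only [Prod.snd_add, Prod.smul_snd, smul_eq_mul]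
      field_simp
      linarith

/-- If `x, x'` lie strictly on the same side of the line `b b'` and `b, b'` strictly on the same side
of the line `x x'`, then the segments `b x`, `b' x'` meet or the segments `b x'`, `b' x` meet. -/
theorem cross_of_same_sides (b b' x x' : ℝ × ℝ) (h1 : 0 < det b b' x * det b b' x')
    (h2 : 0 < det x x' b * det x x' b') :
    (segment ℝ b x ∩ segment ℝ b' x').Nonempty ∨ (segment ℝ b x' ∩ segment ℝ b' x).Nonempty := by
  -- the dependency  o4 b - o3 b' + o2 x - o1 x' = 0
  set o1 := det b b' x with ho1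
  set o2 := det b b' x' with ho2
  set o3 := det x x' b with ho3
  set o4 := det x x' b' with ho4
  have hs : o4 - o3 + o2 - o1 = 0 := by
    simp only [ho1, ho2, ho3, ho4, det]; ring
  have hx : o4 * b.1 - o3 * b'.1 + o2 * x.1 - o1 * x'.1 = 0 := by
    simp only [ho1, ho2, ho3, ho4, det]; ring
  have hy : o4 * b.2 - o3 * b'.2 + o2 * x.2 - o1 * x'.2 = 0 := by
    simp only [ho1, ho2, ho3, ho4, det]; ring
  rcases (mul_pos_iff.mp h1) with ⟨p1, p2⟩ | ⟨p1, p2⟩ <;>
  rcases (mul_pos_iff.mp h2) with ⟨p3, p4⟩ | ⟨p3, p4⟩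
  · left
    exact meet_of_dep b x b' x' o4 o2 o3 o1 p4 p2 p3 p1 (by linarith) (by linarith) (by linarith)
  · right
    exact meet_of_dep b x' b' x (-o4) o1 (-o3) o2 (by linarith) p1 (by linarith) p2 (by linarith)
      (by linarith) (by linarith)
  · right
    exact meet_of_dep b x' b' x o4 (-o1) o3 (-o2) p4 (by linarith) p3 (by linarith) (by linarith)
      (by linarith) (by linarith)
  · left
    exact meet_of_dep b x b' x' (-o4) (-o2) (-o3) (-o1) (by linarith) (by linarith) (by linarith)
      (by linarith) (by linarith) (by linarith) (by linarith)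

end Vale.Agent.P040.Rect
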