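import Vale.Agent.P040.Rect.Geo

/-!
# Rectilinear Zarankiewicz: discordant pairs of the two ends are `Good` pairs (rows D1 - D4)
-/

namespace Vale.Agent.P040.Rect

open Finset Vale.Agent.P040.All

variable {k : ℕ} {r : ℕ → ℝ × ℝ} {c c' : ℝ × ℝ}

/-- (D1) `unfold mu det; field_simp; ring`. -/
lemma mu_neg_one_sub {x y : ℕ} (hx : det c c' (r x) ≠ 0) (hy : det c c' (r y) ≠ 0) :
    mu r c c' (-1) x - mu r c c' (-1) y =
      -(2 * (c'.1 - c.1) * det (r x) (r y) c) / (det c c' (r x) * det c c' (r y)) := by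
  unfold mu
  rw [div_sub_div _ _ hx hy]
  congr 1
  unfold det
  ring

/-- (D2) `unfold mu det; field_simp; ring`. -/
lemma mu_one_sub {x y : ℕ} (hx : det c c' (r x) ≠ 0) (hy : det c c' (r y) ≠ 0) :
    mu r c c' 1 x - mu r c c' 1 y =
      (2 * (c'.1 - c.1) * det (r x) (r y) c') / (det c c' (r x) * det c c' (r y)) := by
  unfold mu
  rw [div_sub_div _ _ hx hy, div_left_inj' (mul_ne_zero hx hy)]
  unfold det
  ring

/-- (D3) a discordant pair `x < y`.  By `mk_lt_iff_of_lt` at `s = -1` and `s = 1`: if the blocks differ the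
pair is concordant; so the blocks agree, i.e. `0 < H_x H_y` (`H = det c c' (r ·) ≠ 0`).  Then
`¬ (mu(-1) x - mu(-1) y ≤ 0 ↔ mu 1 x - mu 1 y ≤ 0)`; by D1, D2 (denominator `> 0`, `c'.1 - c.1 > 0`) this is
`¬ (0 ≤ O ↔ O' ≤ 0)` with `O = det (r x) (r y) c ≠ 0`, `O' = det (r x) (r y) c' ≠ 0`, hence `0 < O O'`. -/
lemma good_of_disc (hb : Blue k r c) (hb' : Blue k r c') (hp : BPair k r c c') {x y : ℕ}
    (hxy : x < y) (hy : y < 2 * k + 1)
    (h : ¬ (mk k r c c' (-1) x < mk k r c c' (-1) y ↔ mk k r c c' 1 x < mk k r c c' 1 y)) :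
    Good c c' (r x) (r y) := by
  have hx : x < 2 * k + 1 := by omega
  have hHx : det c c' (r x) ≠ 0 := hp.gp x hx
  have hHy : det c c' (r y) ≠ 0 := hp.gp y hy
  have hO : det (r x) (r y) c ≠ 0 := hb.gp x hx y hy (by omega)
  have hO' : det (r x) (r y) c' ≠ 0 := hb'.gp x hx y hy (by omega)
  have hw : 0 < c'.1 - c.1 := by linarith [hp.lt]
  rw [mk_lt_iff_of_lt hxy hy, mk_lt_iff_of_lt hxy hy] at h
  by_cases hB : (if 0 < det c c' (r x) then (0 : ℤ) else 1) = (if 0 < det c c' (r y) then (0 : ℤ) else 1)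
  · have hA : ¬ ((if 0 < det c c' (r x) then (0 : ℤ) else 1) <
        (if 0 < det c c' (r y) then (0 : ℤ) else 1)) := by rw [hB]; exact lt_irrefl _
    have hprod : 0 < det c c' (r x) * det c c' (r y) := by
      by_cases h1 : 0 < det c c' (r x)
      · by_cases h2 : 0 < det c c' (r y)
        · exact mul_pos h1 h2
        · rw [if_pos h1, if_neg h2] at hB
          exact absurd hB (by norm_num)
      · by_cases h2 : 0 < det c c' (r y)
        · rw [if_neg h1, if_pos h2] at hB
          exact absurd hB (by norm_num)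
        · exact mul_pos_of_neg_of_neg (lt_of_le_of_ne (not_lt.mp h1) hHx)
            (lt_of_le_of_ne (not_lt.mp h2) hHy)
    have h' : ¬ (mu r c c' (-1) x - mu r c c' (-1) y ≤ 0 ↔ mu r c c' 1 x - mu r c c' 1 y ≤ 0) := by
      intro hh
      apply h
      constructor
      · rintro (h1 | ⟨_, h1⟩)
        · exact absurd h1 hA
        · exact Or.inr ⟨hB, hh.mp h1⟩
      · rintro (h1 | ⟨_, h1⟩)
        · exact absurd h1 hA
        · exact Or.inr ⟨hB, hh.mpr h1⟩
    rw [mu_neg_one_sub hHx hHy, mu_one_sub hHx hHy, div_le_iff₀ hprod, div_le_iff₀ hprod, zero_mul]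
      at h'
    refine ⟨hprod, ?_⟩
    rcases lt_or_gt_of_ne hO with h1 | h1
    · rcases lt_or_gt_of_ne hO' with h2 | h2
      · exact mul_pos_of_neg_of_neg h1 h2
      · exfalso
        apply h'
        constructor
        · intro h3
          nlinarith [mul_pos hw (neg_pos.mpr h1)]
        · intro h3
          nlinarith [mul_pos hw h2]
    · rcases lt_or_gt_of_ne hO' with h2 | h2
      · exfalso
        apply h'
        constructor
        · intro _
          nlinarith [mul_pos hw (neg_pos.mpr h2)]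
        · intro _
          nlinarith [mul_pos hw h1]
      · exact mul_pos h1 h2
  · exfalso
    apply h
    simp only [hB, false_and, or_false]

open Classical in
/-- (D4) `card_le_card`; membership in `Disc` unfolds to the hypothesis of D3. -/
lemma disc_le_good (hb : Blue k r c) (hb' : Blue k r c') (hp : BPair k r c c') :
    (Disc (2 * k + 1) (mk k r c c' (-1)) (mk k r c c' 1)).card ≤
      (((range (2 * k + 1)) ×ˢ (range (2 * k + 1))).filter
        fun q => q.1 < q.2 ∧ Good c c' (r q.1) (r q.2)).card := by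
  apply card_le_card
  intro q hq
  unfold Disc at hq
  rw [mem_filter, mem_product, mem_range, mem_range] at hq
  rw [mem_filter, mem_product, mem_range, mem_range]
  exact ⟨hq.1, hq.2.1, good_of_disc hb hb' hp hq.2.1 hq.1.2 hq.2.2⟩

end Vale.Agent.P040.Rect
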