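import Vale.Agent.P040.Rect.Geo

/-!
# Rectilinear Zarankiewicz: the two ends of the path (rows N1 - N16)

At `s = -1` the arrangement `mk` is a cyclic shift of the rotation at `c`; at `s = 1` it is a cyclic
shift of the reversed rotation at `c'`.  Notation of the hints: `u = c'.1 - c.1 > 0`,
`v = c'.2 - c.2`, `d_x = (r x).1 - c.1`, `z_x = u * slope c (r x) - v` (and `d'`, `z'` with `c'` as base
point).  Then `det c c' (r x) = d_x z_x = d'_x z'_x`, `mu (-1) x = -2 / z_x`, `mu 1 x = 2 / z'_x`.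
-/

namespace Vale.Agent.P040.Rect

open Finset Vale.Agent.P040.All

variable {k : ℕ} {r : ℕ → ℝ × ℝ} {c c' : ℝ × ℝ}

/-- (N1) `unfold det slope; field_simp; ring` (`P.1 - c.1 ≠ 0`). -/
lemma det_eq_left {P : ℝ × ℝ} (h : P.1 ≠ c.1) :
    det c c' P = (P.1 - c.1) * ((c'.1 - c.1) * slope c P - (c'.2 - c.2)) := by
  have h' : P.1 - c.1 ≠ 0 := sub_ne_zero.mpr h
  unfold det slope
  field_simp

/-- (N2) same with base point `c'`. -/
lemma det_eq_right {P : ℝ × ℝ} (h : P.1 ≠ c'.1) :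
    det c c' P = (P.1 - c'.1) * ((c'.1 - c.1) * slope c' P - (c'.2 - c.2)) := by
  have h' : P.1 - c'.1 ≠ 0 := sub_ne_zero.mpr h
  unfold det slope
  field_simp
  ring

/-- (N3) `mu (-1) x = 2 (p - a_x) / det`, then N1. -/
lemma mu_neg_one {x : ℕ} (h : (r x).1 ≠ c.1) :
    mu r c c' (-1) x = -2 / ((c'.1 - c.1) * slope c (r x) - (c'.2 - c.2)) := by
  have h' : (r x).1 - c.1 ≠ 0 := sub_ne_zero.mpr h
  unfold mu
  rw [det_eq_left h]
  have e : (-1 * (2 * (r x).1 - c.1 - c'.1) - (c'.1 - c.1)) = ((r x).1 - c.1) * (-2) := by ring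
  rw [e, mul_div_mul_left _ _ h']

/-- (N4) `mu 1 x = 2 (a_x - p') / det`, then N2. -/
lemma mu_one {x : ℕ} (h : (r x).1 ≠ c'.1) :
    mu r c c' 1 x = 2 / ((c'.1 - c.1) * slope c' (r x) - (c'.2 - c.2)) := by
  have h' : (r x).1 - c'.1 ≠ 0 := sub_ne_zero.mpr h
  unfold mu
  rw [det_eq_right h]
  have e : (1 * (2 * (r x).1 - c.1 - c'.1) - (c'.1 - c.1)) = ((r x).1 - c'.1) * 2 := by ring
  rw [e, mul_div_mul_left _ _ h']

/-- (N5) `z ↦ -2 / z` is increasing on each of the two half lines. -/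
lemma neg_two_div_lt {z w : ℝ} (h : 0 < z * w) : -2 / z < -2 / w ↔ z < w := by
  have hz : z ≠ 0 := by rintro rfl; simp at h
  have hw : w ≠ 0 := by rintro rfl; simp at h
  have e : -2 / w - -2 / z = 2 * (w - z) / (z * w) := by
    field_simp
    ring
  constructor
  · intro h1
    have h2 : 0 < 2 * (w - z) / (z * w) := by rw [← e]; linarith
    have h3 : 0 < 2 * (w - z) := by
      have := mul_pos h2 h
      rwa [div_mul_cancel₀ _ (ne_of_gt h)] at this
    linarith
  · intro h1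
    have h2 : 0 < 2 * (w - z) / (z * w) := div_pos (by linarith) h
    rw [← e] at h2
    linarith

/-- (N6) `z ↦ 2 / z` is decreasing on each of the two half lines. -/
lemma two_div_lt {z w : ℝ} (h : 0 < z * w) : 2 / z < 2 / w ↔ w < z := by
  have hz : z ≠ 0 := by rintro rfl; simp at h
  have hw : w ≠ 0 := by rintro rfl; simp at h
  have e : 2 / w - 2 / z = 2 * (z - w) / (z * w) := by
    field_simp
  constructor
  · intro h1
    have h2 : 0 < 2 * (z - w) / (z * w) := by rw [← e]; linarith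
    have h3 : 0 < 2 * (z - w) := by
      have := mul_pos h2 h
      rwa [div_mul_cancel₀ _ (ne_of_gt h)] at this
    linarith
  · intro h1
    have h2 : 0 < 2 * (z - w) / (z * w) := div_pos (by linarith) h
    rw [← e] at h2
    linarith

/-- (N7) `det X Y c = d_X d_Y (slope c Y - slope c X)`. -/
lemma det_slope {X Y : ℝ × ℝ} (hX : X.1 ≠ c.1) (hY : Y.1 ≠ c.1) :
    det X Y c = (X.1 - c.1) * (Y.1 - c.1) * (slope c Y - slope c X) := by
  have hX' : X.1 - c.1 ≠ 0 := sub_ne_zero.mpr hX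
  have hY' : Y.1 - c.1 ≠ 0 := sub_ne_zero.mpr hY
  unfold det slope
  field_simp
  ring

/-- (N8) field `hA` of the rotation at the left end: both `x`, `y` are right of `c` and below the line
(`d > 0`, `z < 0`).  `vk_lt_iff`, `mk_lt_iff`: all four blocks are determined, the slopes compare as the
`z`'s (`u > 0`), N3, N5 (also for equality: `-2/z = -2/w ↔ z = w`). -/
lemma rotL_A (hb : Blue k r c) (hp : BPair k r c c') {x y : ℕ} (hx : x < 2 * k + 1)
    (hy : y < 2 * k + 1) (hAx : det c c' (r x) < 0 ∧ c.1 < (r x).1)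
    (hAy : det c c' (r y) < 0 ∧ c.1 < (r y).1) :
    vk k r c x < vk k r c y ↔ mk k r c c' (-1) x < mk k r c c' (-1) y := by
  have hu : 0 < c'.1 - c.1 := sub_pos.2 hp.lt
  have hxne := hb.ne x hx
  have hyne := hb.ne y hy
  obtain ⟨zx, hzx⟩ : ∃ z, z = (c'.1 - c.1) * slope c (r x) - (c'.2 - c.2) := ⟨_, rfl⟩
  obtain ⟨zy, hzy⟩ : ∃ z, z = (c'.1 - c.1) * slope c (r y) - (c'.2 - c.2) := ⟨_, rfl⟩
  have dx : det c c' (r x) = ((r x).1 - c.1) * zx := by rw [hzx]; exact det_eq_left hxne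
  have dy : det c c' (r y) = ((r y).1 - c.1) * zy := by rw [hzy]; exact det_eq_left hyne
  have zx0 : zx < 0 := by
    have h2 := hAx.1
    rw [dx] at h2
    rcases mul_neg_iff.1 h2 with h | h
    · exact h.2
    · exact absurd (sub_pos.2 hAx.2) (not_lt.2 h.1.le)
  have zy0 : zy < 0 := by
    have h2 := hAy.1
    rw [dy] at h2
    rcases mul_neg_iff.1 h2 with h | h
    · exact h.2
    · exact absurd (sub_pos.2 hAy.2) (not_lt.2 h.1.le)
  have mx : mu r c c' (-1) x = -2 / zx := by rw [hzx]; exact mu_neg_one hxne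
  have my : mu r c c' (-1) y = -2 / zy := by rw [hzy]; exact mu_neg_one hyne
  have hlt : mu r c c' (-1) x < mu r c c' (-1) y ↔ slope c (r x) < slope c (r y) := by
    rw [mx, my, neg_two_div_lt (mul_pos_of_neg_of_neg zx0 zy0), hzx, hzy]
    constructor <;> intro h <;> nlinarith
  have hlt' : mu r c c' (-1) y < mu r c c' (-1) x ↔ slope c (r y) < slope c (r x) := by
    rw [mx, my, neg_two_div_lt (mul_pos_of_neg_of_neg zy0 zx0), hzx, hzy]
    constructor <;> intro h <;> nlinarith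
  have heq : mu r c c' (-1) x = mu r c c' (-1) y ↔ slope c (r x) = slope c (r y) := by
    constructor
    · intro h
      rcases lt_trichotomy (slope c (r x)) (slope c (r y)) with h1 | h1 | h1
      · exact absurd (hlt.2 h1) (by rw [h]; exact lt_irrefl _)
      · exact h1
      · exact absurd (hlt'.2 h1) (by rw [h]; exact lt_irrefl _)
    · intro h
      rw [mx, my, hzx, hzy, h]
  rw [vk_lt_iff hx, mk_lt_iff hx, if_pos hAx.2, if_pos hAy.2, if_neg (not_lt.2 hAx.1.le),
    if_neg (not_lt.2 hAy.1.le), hlt, heq]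
  simp

private lemma n2d_lt {z w : ℝ} (h : 0 < z * w) : -2 / z < -2 / w ↔ z < w := by
  rcases pos_and_pos_or_neg_and_neg_of_mul_pos h with ⟨hz, hw⟩ | ⟨hz, hw⟩
  · rw [div_lt_div_iff₀ hz hw]
    constructor <;> intro h' <;> nlinarith
  · have hz' : 0 < -z := by linarith
    have hw' : 0 < -w := by linarith
    have e1 : -2 / z = 2 / (-z) := by rw [div_neg, neg_div]
    have e2 : -2 / w = 2 / (-w) := by rw [div_neg, neg_div]
    rw [e1, e2, div_lt_div_iff₀ hz' hw']
    constructor <;> intro h' <;> nlinarith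

private lemma n2d_eq {z w : ℝ} (hz : z ≠ 0) (hw : w ≠ 0) : -2 / z = -2 / w ↔ z = w := by
  rw [div_eq_div_iff hz hw]
  constructor
  · intro h; linarith
  · intro h; rw [h]

private lemma auxL (dx zx dy zy : ℝ) (P : Prop) (hdx : dx ≠ 0) (hzx : zx ≠ 0) (hdy : dy ≠ 0)
    (hzy : zy ≠ 0) (hx : ¬ (dx * zx < 0 ∧ 0 < dx)) (hy : ¬ (dy * zy < 0 ∧ 0 < dy)) :
    (((if 0 < dx then (0 : ℤ) else 1) < (if 0 < dy then (0 : ℤ) else 1)) ∨
      ((if 0 < dx then (0 : ℤ) else 1) = (if 0 < dy then (0 : ℤ) else 1) ∧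
        (zx < zy ∨ (zx = zy ∧ P)))) ↔
    (((if 0 < dx * zx then (0 : ℤ) else 1) < (if 0 < dy * zy then (0 : ℤ) else 1)) ∨
      ((if 0 < dx * zx then (0 : ℤ) else 1) = (if 0 < dy * zy then (0 : ℤ) else 1) ∧
        (-2 / zx < -2 / zy ∨ (-2 / zx = -2 / zy ∧ P)))) := by
  rw [n2d_eq hzx hzy]
  rcases lt_or_gt_of_ne hdx with h1 | h1 <;> rcases lt_or_gt_of_ne hzx with h2 | h2 <;>
  rcases lt_or_gt_of_ne hdy with h3 | h3 <;> rcases lt_or_gt_of_ne hzy with h4 | h4
  all_goals first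
    | (exfalso; exact hx ⟨mul_neg_of_pos_of_neg h1 h2, h1⟩)
    | (exfalso; exact hy ⟨mul_neg_of_pos_of_neg h3 h4, h3⟩)
    | skip
  · -- UL UL
    rw [if_neg (not_lt.mpr h1.le), if_neg (not_lt.mpr h3.le), if_pos (mul_pos_of_neg_of_neg h1 h2),
      if_pos (mul_pos_of_neg_of_neg h3 h4), n2d_lt (mul_pos_of_neg_of_neg h2 h4)]
    simp
  · -- UL DL
    rw [if_neg (not_lt.mpr h1.le), if_neg (not_lt.mpr h3.le), if_pos (mul_pos_of_neg_of_neg h1 h2),
      if_neg (not_lt.mpr (mul_neg_of_neg_of_pos h3 h4).le)]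
    constructor
    · intro _; left; norm_num
    · intro _; right; exact ⟨rfl, Or.inl (h2.trans h4)⟩
  · -- UL UR
    rw [if_neg (not_lt.mpr h1.le), if_pos h3, if_pos (mul_pos_of_neg_of_neg h1 h2),
      if_pos (mul_pos h3 h4)]
    have m1 : 0 < -2 / zx := div_pos_of_neg_of_neg (by norm_num) h2
    have m2 : -2 / zy < 0 := div_neg_of_neg_of_pos (by norm_num) h4
    constructor
    · rintro (h | ⟨h, _⟩)
      · norm_num at h
      · norm_num at h
    · rintro (h | ⟨_, h | ⟨h, _⟩⟩)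
      · norm_num at h
      · linarith
      · linarith
  · -- DL UL
    rw [if_neg (not_lt.mpr h1.le), if_neg (not_lt.mpr h3.le),
      if_neg (not_lt.mpr (mul_neg_of_neg_of_pos h1 h2).le), if_pos (mul_pos_of_neg_of_neg h3 h4)]
    constructor
    · rintro (h | ⟨_, h | ⟨h, _⟩⟩)
      · norm_num at h
      · linarith
      · linarith
    · rintro (h | ⟨h, _⟩)
      · norm_num at h
      · norm_num at h
  · -- DL DL
    rw [if_neg (not_lt.mpr h1.le), if_neg (not_lt.mpr h3.le),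
      if_neg (not_lt.mpr (mul_neg_of_neg_of_pos h1 h2).le),
      if_neg (not_lt.mpr (mul_neg_of_neg_of_pos h3 h4).le), n2d_lt (mul_pos h2 h4)]
  · -- DL UR
    rw [if_neg (not_lt.mpr h1.le), if_pos h3,
      if_neg (not_lt.mpr (mul_neg_of_neg_of_pos h1 h2).le), if_pos (mul_pos h3 h4)]
    simp
  · -- UR UL
    rw [if_pos h1, if_neg (not_lt.mpr h3.le), if_pos (mul_pos h1 h2),
      if_pos (mul_pos_of_neg_of_neg h3 h4)]
    have m1 : -2 / zx < 0 := div_neg_of_neg_of_pos (by norm_num) h2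
    have m2 : 0 < -2 / zy := div_pos_of_neg_of_neg (by norm_num) h4
    constructor
    · intro _; right; exact ⟨rfl, Or.inl (m1.trans m2)⟩
    · intro _; left; norm_num
  · -- UR DL
    rw [if_pos h1, if_neg (not_lt.mpr h3.le), if_pos (mul_pos h1 h2),
      if_neg (not_lt.mpr (mul_neg_of_neg_of_pos h3 h4).le)]
    simp
  · -- UR UR
    rw [if_pos h1, if_pos h3, if_pos (mul_pos h1 h2), if_pos (mul_pos h3 h4),
      n2d_lt (mul_pos h2 h4)]

/-- (N9) field `hN`: each of `x`, `y` is in `U right` (`d > 0, z > 0`), `U left` (`d < 0, z < 0`) or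
`D left` (`d < 0, z > 0`); both sequences are `[U right][U left][D left]`, inside a block ordered by `z`.
Nine cases; in `mk`: `U right` has `mu = -2/z < 0`, `U left` has `mu > 0`. -/
lemma rotL_N (hb : Blue k r c) (hp : BPair k r c c') {x y : ℕ} (hx : x < 2 * k + 1)
    (hy : y < 2 * k + 1) (hAx : ¬ (det c c' (r x) < 0 ∧ c.1 < (r x).1))
    (hAy : ¬ (det c c' (r y) < 0 ∧ c.1 < (r y).1)) :
    vk k r c x < vk k r c y ↔ mk k r c c' (-1) x < mk k r c c' (-1) y := by
  have hu : 0 < c'.1 - c.1 := sub_pos.mpr hp.lt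
  have hdx : (r x).1 - c.1 ≠ 0 := sub_ne_zero.mpr (hb.ne x hx)
  have hdy : (r y).1 - c.1 ≠ 0 := sub_ne_zero.mpr (hb.ne y hy)
  have ex := det_eq_left (c := c) (c' := c') (hb.ne x hx)
  have ey := det_eq_left (c := c) (c' := c') (hb.ne y hy)
  have gx := hp.gp x hx
  have gy := hp.gp y hy
  rw [vk_lt_iff hx, mk_lt_iff hx, mu_neg_one (hb.ne x hx), mu_neg_one (hb.ne y hy)]
  rw [ex] at hAx gx
  rw [ey] at hAy gy
  rw [ex, ey]
  have hzx := right_ne_zero_of_mul gx
  have hzy := right_ne_zero_of_mul gy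
  have e1 : slope c (r x) < slope c (r y) ↔
      (c'.1 - c.1) * slope c (r x) - (c'.2 - c.2) < (c'.1 - c.1) * slope c (r y) - (c'.2 - c.2) := by
    constructor
    · intro h
      have := mul_lt_mul_of_pos_left h hu
      linarith
    · intro h
      have : (c'.1 - c.1) * slope c (r x) < (c'.1 - c.1) * slope c (r y) := by linarith
      exact lt_of_mul_lt_mul_left this hu.le
  have e2 : slope c (r x) = slope c (r y) ↔
      (c'.1 - c.1) * slope c (r x) - (c'.2 - c.2) = (c'.1 - c.1) * slope c (r y) - (c'.2 - c.2) := by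
    constructor
    · intro h
      rw [h]
    · intro h
      have : (c'.1 - c.1) * slope c (r x) = (c'.1 - c.1) * slope c (r y) := by linarith
      exact mul_left_cancel₀ hu.ne' this
  have b1 : c.1 < (r x).1 ↔ 0 < (r x).1 - c.1 := sub_pos.symm
  have b2 : c.1 < (r y).1 ↔ 0 < (r y).1 - c.1 := sub_pos.symm
  rw [b1] at hAx
  rw [b2] at hAy
  simp only [b1, b2, e1, e2]
  exact auxL _ _ _ _ _ hdx hzx hdy hzy hAx hAy

/-- (N10) field `hAN`: `x` in `D right` (`d > 0, z < 0`), `y` not.  In `vk`: `y` right of `c` has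
`z_y > 0 > z_x`, `y` left of `c` is in the later block.  In `mk`: `y ∈ U` is in the earlier block;
`y ∈ D left` has `mu = -2/z_y < 0 < -2/z_x`. -/
lemma rotL_AN (hb : Blue k r c) (hp : BPair k r c c') {x y : ℕ} (hx : x < 2 * k + 1)
    (hy : y < 2 * k + 1) (hAx : det c c' (r x) < 0 ∧ c.1 < (r x).1)
    (hAy : ¬ (det c c' (r y) < 0 ∧ c.1 < (r y).1)) :
    vk k r c x < vk k r c y ∧ mk k r c c' (-1) y < mk k r c c' (-1) x := by
  have hu : 0 < c'.1 - c.1 := sub_pos.2 hp.lt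
  have hxne := hb.ne x hx
  have hyne := hb.ne y hy
  obtain ⟨zx, hzx⟩ : ∃ z, z = (c'.1 - c.1) * slope c (r x) - (c'.2 - c.2) := ⟨_, rfl⟩
  obtain ⟨zy, hzy⟩ : ∃ z, z = (c'.1 - c.1) * slope c (r y) - (c'.2 - c.2) := ⟨_, rfl⟩
  have dx : det c c' (r x) = ((r x).1 - c.1) * zx := by rw [hzx]; exact det_eq_left hxne
  have dy : det c c' (r y) = ((r y).1 - c.1) * zy := by rw [hzy]; exact det_eq_left hyne
  have zx0 : zx < 0 := by
    have h2 := hAx.1
    rw [dx] at h2
    rcases mul_neg_iff.1 h2 with h | h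
    · exact h.2
    · exact absurd (sub_pos.2 hAx.2) (not_lt.2 h.1.le)
  have mx : mu r c c' (-1) x = -2 / zx := by rw [hzx]; exact mu_neg_one hxne
  have my : mu r c c' (-1) y = -2 / zy := by rw [hzy]; exact mu_neg_one hyne
  have mx0 : 0 < mu r c c' (-1) x := by
    rw [mx]; exact div_pos_of_neg_of_neg (by norm_num) zx0
  have hdy := hp.gp y hy
  rw [vk_lt_iff hx, mk_lt_iff hy, if_pos hAx.2, if_neg (not_lt.2 hAx.1.le)]
  by_cases hyr : c.1 < (r y).1
  · have hdy0 : 0 < det c c' (r y) := by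
      rcases lt_or_gt_of_ne hdy with h | h
      · exact absurd ⟨h, hyr⟩ hAy
      · exact h
    have zy0 : 0 < zy := by
      rw [dy] at hdy0
      rcases mul_pos_iff.1 hdy0 with h | h
      · exact h.2
      · exact absurd (sub_pos.2 hyr) (not_lt.2 h.1.le)
    rw [if_pos hyr, if_pos hdy0]
    refine ⟨Or.inr ⟨rfl, Or.inl ?_⟩, Or.inl (by norm_num)⟩
    have : zx < zy := zx0.trans zy0
    rw [hzx, hzy] at this
    nlinarith
  · rw [if_neg hyr]
    refine ⟨Or.inl (by norm_num), ?_⟩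
    by_cases hdy0 : 0 < det c c' (r y)
    · rw [if_pos hdy0]
      exact Or.inl (by norm_num)
    · rw [if_neg hdy0]
      have hdy1 : det c c' (r y) < 0 := lt_of_le_of_ne (not_lt.1 hdy0) hdy
      have hyl : (r y).1 - c.1 < 0 := sub_neg.2 (lt_of_le_of_ne (not_lt.1 hyr) hyne)
      have zy0 : 0 < zy := by
        rw [dy] at hdy1
        rcases mul_neg_iff.1 hdy1 with h | h
        · exact absurd hyl (not_lt.2 h.1.le)
        · exact h.2
      refine Or.inr ⟨rfl, Or.inl ?_⟩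
      have : mu r c c' (-1) y < 0 := by
        rw [my]; exact div_neg_of_neg_of_pos (by norm_num) zy0
      exact this.trans mx0

/-- (N11) -/
lemma rotL (hb : Blue k r c) (hp : BPair k r c c') :
    Rot (2 * k + 1) (vk k r c) (mk k r c c' (-1)) (fun x => det c c' (r x) < 0 ∧ c.1 < (r x).1) :=
  ⟨fun _ hx _ hy hAx hAy => rotL_A hb hp hx hy hAx hAy,
   fun _ hx _ hy hAx hAy => rotL_N hb hp hx hy hAx hAy,
   fun _ hx _ hy hAx hAy => rotL_AN hb hp hx hy hAx hAy⟩

/-- (N12) field `hA` at the right end: both `x`, `y` left of `c'` and below the line (`d' < 0`, `z' > 0`).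
`-vk x < -vk y ↔ vk y < vk x ↔ z'_y < z'_x` (no tie for `x ≠ y`: N7 and `Blue.gp`; the case `x = y` is
trivial) `↔ 2/z'_x < 2/z'_y` (N6, N4). -/
lemma rotR_A (hb : Blue k r c') (hp : BPair k r c c') {x y : ℕ} (hx : x < 2 * k + 1)
    (hy : y < 2 * k + 1) (hAx : det c c' (r x) < 0 ∧ (r x).1 < c'.1)
    (hAy : det c c' (r y) < 0 ∧ (r y).1 < c'.1) :
    - vk k r c' x < - vk k r c' y ↔ mk k r c c' 1 x < mk k r c c' 1 y := by
  have hu : 0 < c'.1 - c.1 := sub_pos.2 hp.lt
  have hxne := hb.ne x hx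
  have hyne := hb.ne y hy
  obtain ⟨zx, hzx⟩ : ∃ z, z = (c'.1 - c.1) * slope c' (r x) - (c'.2 - c.2) := ⟨_, rfl⟩
  obtain ⟨zy, hzy⟩ : ∃ z, z = (c'.1 - c.1) * slope c' (r y) - (c'.2 - c.2) := ⟨_, rfl⟩
  have dx : det c c' (r x) = ((r x).1 - c'.1) * zx := by rw [hzx]; exact det_eq_right hxne
  have dy : det c c' (r y) = ((r y).1 - c'.1) * zy := by rw [hzy]; exact det_eq_right hyne
  have zx0 : 0 < zx := by
    have h2 := hAx.1
    rw [dx] at h2
    rcases mul_neg_iff.1 h2 with h | h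
    · exact absurd (sub_neg.2 hAx.2) (not_lt.2 h.1.le)
    · exact h.2
  have zy0 : 0 < zy := by
    have h2 := hAy.1
    rw [dy] at h2
    rcases mul_neg_iff.1 h2 with h | h
    · exact absurd (sub_neg.2 hAy.2) (not_lt.2 h.1.le)
    · exact h.2
  have mx : mu r c c' 1 x = 2 / zx := by rw [hzx]; exact mu_one hxne
  have my : mu r c c' 1 y = 2 / zy := by rw [hzy]; exact mu_one hyne
  have hlt : mu r c c' 1 x < mu r c c' 1 y ↔ slope c' (r y) < slope c' (r x) := by
    rw [mx, my, two_div_lt (mul_pos zx0 zy0), hzx, hzy]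
    constructor <;> intro h <;> nlinarith
  rw [neg_lt_neg_iff, vk_lt_iff hy, mk_lt_iff hx, if_neg (not_lt.2 hAx.2.le),
    if_neg (not_lt.2 hAy.2.le), if_neg (not_lt.2 hAx.1.le), if_neg (not_lt.2 hAy.1.le), hlt]
  by_cases hxy : x = y
  · subst hxy
    simp
  · have hs : slope c' (r y) ≠ slope c' (r x) := by
      intro h
      have h1 := hb.gp x hx y hy hxy
      rw [det_slope hxne hyne, h, sub_self, mul_zero] at h1
      exact h1 rfl
    have hm : mu r c c' 1 x ≠ mu r c c' 1 y := by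
      intro h
      rw [mx, my] at h
      have h2 : zx = zy := by
        field_simp at h
        linarith
      rw [hzx, hzy] at h2
      apply hs
      have h3 : (c'.1 - c.1) * (slope c' (r y) - slope c' (r x)) = 0 := by linarith
      rcases mul_eq_zero.1 h3 with h4 | h4
      · exact absurd h4 hu.ne'
      · linarith
    simp [hs, hm]

private lemma p2d_lt {z w : ℝ} (h : 0 < z * w) : 2 / z < 2 / w ↔ w < z := by
  rcases pos_and_pos_or_neg_and_neg_of_mul_pos h with ⟨hz, hw⟩ | ⟨hz, hw⟩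
  · rw [div_lt_div_iff₀ hz hw]
    constructor <;> intro h' <;> nlinarith
  · have hz' : 0 < -z := by linarith
    have hw' : 0 < -w := by linarith
    have e1 : 2 / z = -2 / (-z) := by rw [neg_div_neg_eq]
    have e2 : 2 / w = -2 / (-w) := by rw [neg_div_neg_eq]
    rw [e1, e2, div_lt_div_iff₀ hz' hw']
    constructor <;> intro h' <;> nlinarith

private lemma auxR (dx zx dy zy : ℝ) (hdx : dx ≠ 0) (hzx : zx ≠ 0) (hdy : dy ≠ 0)
    (hzy : zy ≠ 0) (hx : ¬ (dx * zx < 0 ∧ dx < 0)) (hy : ¬ (dy * zy < 0 ∧ dy < 0)) :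
    (((if 0 < dy then (0 : ℤ) else 1) < (if 0 < dx then (0 : ℤ) else 1)) ∨
      ((if 0 < dy then (0 : ℤ) else 1) = (if 0 < dx then (0 : ℤ) else 1) ∧ zy < zx)) ↔
    (((if 0 < dx * zx then (0 : ℤ) else 1) < (if 0 < dy * zy then (0 : ℤ) else 1)) ∨
      ((if 0 < dx * zx then (0 : ℤ) else 1) = (if 0 < dy * zy then (0 : ℤ) else 1) ∧
        2 / zx < 2 / zy)) := by
  rcases lt_or_gt_of_ne hdx with h1 | h1 <;> rcases lt_or_gt_of_ne hzx with h2 | h2 <;>
  rcases lt_or_gt_of_ne hdy with h3 | h3 <;> rcases lt_or_gt_of_ne hzy with h4 | h4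
  all_goals first
    | (exfalso; exact hx ⟨mul_neg_of_neg_of_pos h1 h2, h1⟩)
    | (exfalso; exact hy ⟨mul_neg_of_neg_of_pos h3 h4, h3⟩)
    | skip
  · -- UL UL
    rw [if_neg (not_lt.mpr h1.le), if_neg (not_lt.mpr h3.le), if_pos (mul_pos_of_neg_of_neg h1 h2),
      if_pos (mul_pos_of_neg_of_neg h3 h4), p2d_lt (mul_pos_of_neg_of_neg h2 h4)]
    simp
  · -- UL DR
    rw [if_neg (not_lt.mpr h1.le), if_pos h3, if_pos (mul_pos_of_neg_of_neg h1 h2),
      if_neg (not_lt.mpr (mul_neg_of_pos_of_neg h3 h4).le)]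
    simp
  · -- UL UR
    rw [if_neg (not_lt.mpr h1.le), if_pos h3, if_pos (mul_pos_of_neg_of_neg h1 h2),
      if_pos (mul_pos h3 h4)]
    have m1 : 2 / zx < 0 := div_neg_of_pos_of_neg (by norm_num) h2
    have m2 : 0 < 2 / zy := div_pos (by norm_num) h4
    constructor
    · intro _; right; exact ⟨rfl, m1.trans m2⟩
    · intro _; left; norm_num
  · -- DR UL
    rw [if_pos h1, if_neg (not_lt.mpr h3.le), if_neg (not_lt.mpr (mul_neg_of_pos_of_neg h1 h2).le),
      if_pos (mul_pos_of_neg_of_neg h3 h4)]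
    simp
  · -- DR DR
    rw [if_pos h1, if_pos h3, if_neg (not_lt.mpr (mul_neg_of_pos_of_neg h1 h2).le),
      if_neg (not_lt.mpr (mul_neg_of_pos_of_neg h3 h4).le), p2d_lt (mul_pos_of_neg_of_neg h2 h4)]
    simp
  · -- DR UR
    rw [if_pos h1, if_pos h3, if_neg (not_lt.mpr (mul_neg_of_pos_of_neg h1 h2).le),
      if_pos (mul_pos h3 h4)]
    constructor
    · rintro (h | ⟨_, h⟩)
      · norm_num at h
      · linarith
    · rintro (h | ⟨h, _⟩)
      · norm_num at h
      · norm_num at h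
  · -- UR UL
    rw [if_pos h1, if_neg (not_lt.mpr h3.le), if_pos (mul_pos h1 h2),
      if_pos (mul_pos_of_neg_of_neg h3 h4)]
    have m1 : 0 < 2 / zx := div_pos (by norm_num) h2
    have m2 : 2 / zy < 0 := div_neg_of_pos_of_neg (by norm_num) h4
    constructor
    · rintro (h | ⟨h, _⟩)
      · norm_num at h
      · norm_num at h
    · rintro (h | ⟨_, h⟩)
      · norm_num at h
      · linarith
  · -- UR DR
    rw [if_pos h1, if_pos h3, if_pos (mul_pos h1 h2),
      if_neg (not_lt.mpr (mul_neg_of_pos_of_neg h3 h4).le)]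
    constructor
    · intro _; left; norm_num
    · intro _; right; exact ⟨rfl, h4.trans h2⟩
  · -- UR UR
    rw [if_pos h1, if_pos h3, if_pos (mul_pos h1 h2), if_pos (mul_pos h3 h4),
      p2d_lt (mul_pos h2 h4)]

/-- (N13) field `hN`: each of `x`, `y` is in `U left` (`d' < 0, z' < 0`), `U right` (`d' > 0, z' > 0`) or
`D right` (`d' > 0, z' < 0`); both sequences are `[U left][U right][D right]`, inside a block ordered by
DEcreasing `z'` (no ties for `x ≠ y`). -/
lemma rotR_N (hb : Blue k r c') (hp : BPair k r c c') {x y : ℕ} (hx : x < 2 * k + 1)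
    (hy : y < 2 * k + 1) (hAx : ¬ (det c c' (r x) < 0 ∧ (r x).1 < c'.1))
    (hAy : ¬ (det c c' (r y) < 0 ∧ (r y).1 < c'.1)) :
    - vk k r c' x < - vk k r c' y ↔ mk k r c c' 1 x < mk k r c c' 1 y := by
  by_cases hxy : x = y
  · subst hxy
    simp
  have hu : 0 < c'.1 - c.1 := sub_pos.mpr hp.lt
  have hdx : (r x).1 - c'.1 ≠ 0 := sub_ne_zero.mpr (hb.ne x hx)
  have hdy : (r y).1 - c'.1 ≠ 0 := sub_ne_zero.mpr (hb.ne y hy)
  have ex := det_eq_right (c := c) (c' := c') (hb.ne x hx)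
  have ey := det_eq_right (c := c) (c' := c') (hb.ne y hy)
  have gx := hp.gp x hx
  have gy := hp.gp y hy
  have hsl : slope c' (r y) ≠ slope c' (r x) := by
    intro h
    have h7 := det_slope (c := c') (hb.ne x hx) (hb.ne y hy)
    rw [h, sub_self, mul_zero] at h7
    exact hb.gp x hx y hy hxy h7
  rw [neg_lt_neg_iff, vk_lt_iff hy, mk_lt_iff hx, mu_one (hb.ne x hx), mu_one (hb.ne y hy)]
  rw [ex] at hAx gx
  rw [ey] at hAy gy
  rw [ex, ey]
  have hzx := right_ne_zero_of_mul gx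
  have hzy := right_ne_zero_of_mul gy
  have e1 : slope c' (r y) < slope c' (r x) ↔
      (c'.1 - c.1) * slope c' (r y) - (c'.2 - c.2) < (c'.1 - c.1) * slope c' (r x) - (c'.2 - c.2) := by
    constructor
    · intro h
      have := mul_lt_mul_of_pos_left h hu
      linarith
    · intro h
      have : (c'.1 - c.1) * slope c' (r y) < (c'.1 - c.1) * slope c' (r x) := by linarith
      exact lt_of_mul_lt_mul_left this hu.le
  have hmu : 2 / ((c'.1 - c.1) * slope c' (r x) - (c'.2 - c.2))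
      ≠ 2 / ((c'.1 - c.1) * slope c' (r y) - (c'.2 - c.2)) := by
    intro h
    rw [div_eq_div_iff hzx hzy] at h
    have : (c'.1 - c.1) * slope c' (r y) = (c'.1 - c.1) * slope c' (r x) := by linarith
    exact hsl (mul_left_cancel₀ hu.ne' this)
  have b1 : c'.1 < (r x).1 ↔ 0 < (r x).1 - c'.1 := sub_pos.symm
  have b2 : c'.1 < (r y).1 ↔ 0 < (r y).1 - c'.1 := sub_pos.symm
  have b3 : (r x).1 < c'.1 ↔ (r x).1 - c'.1 < 0 := sub_neg.symm
  have b4 : (r y).1 < c'.1 ↔ (r y).1 - c'.1 < 0 := sub_neg.symm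
  rw [b3] at hAx
  rw [b4] at hAy
  simp only [b1, b2, e1, hsl, hmu, false_and, or_false]
  exact auxR _ _ _ _ hdx hzx hdy hzy hAx hAy

/-- (N14) field `hAN`: `x` in `D left` (`d' < 0, z' > 0`), `y` not.  `vk y < vk x`: `y` right of `c'` is in
the earlier block of `vk`, `y` in `U left` has `z'_y < 0 < z'_x`.  `mk 1 y < mk 1 x`: `y ∈ U` earlier block,
`y` in `D right` has `2/z'_y < 0 < 2/z'_x`. -/
lemma rotR_AN (hb : Blue k r c') (hp : BPair k r c c') {x y : ℕ} (hx : x < 2 * k + 1)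
    (hy : y < 2 * k + 1) (hAx : det c c' (r x) < 0 ∧ (r x).1 < c'.1)
    (hAy : ¬ (det c c' (r y) < 0 ∧ (r y).1 < c'.1)) :
    - vk k r c' x < - vk k r c' y ∧ mk k r c c' 1 y < mk k r c c' 1 x := by
  have hu : 0 < c'.1 - c.1 := sub_pos.2 hp.lt
  have hxne := hb.ne x hx
  have hyne := hb.ne y hy
  obtain ⟨zx, hzx⟩ : ∃ z, z = (c'.1 - c.1) * slope c' (r x) - (c'.2 - c.2) := ⟨_, rfl⟩
  obtain ⟨zy, hzy⟩ : ∃ z, z = (c'.1 - c.1) * slope c' (r y) - (c'.2 - c.2) := ⟨_, rfl⟩
  have dx : det c c' (r x) = ((r x).1 - c'.1) * zx := by rw [hzx]; exact det_eq_right hxne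
  have dy : det c c' (r y) = ((r y).1 - c'.1) * zy := by rw [hzy]; exact det_eq_right hyne
  have zx0 : 0 < zx := by
    have h2 := hAx.1
    rw [dx] at h2
    rcases mul_neg_iff.1 h2 with h | h
    · exact absurd (sub_neg.2 hAx.2) (not_lt.2 h.1.le)
    · exact h.2
  have mx : mu r c c' 1 x = 2 / zx := by rw [hzx]; exact mu_one hxne
  have my : mu r c c' 1 y = 2 / zy := by rw [hzy]; exact mu_one hyne
  have mx0 : 0 < mu r c c' 1 x := by
    rw [mx]; exact div_pos (by norm_num) zx0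
  have hdy := hp.gp y hy
  rw [neg_lt_neg_iff, vk_lt_iff hy, mk_lt_iff hy, if_neg (not_lt.2 hAx.2.le),
    if_neg (not_lt.2 hAx.1.le)]
  by_cases hyr : c'.1 < (r y).1
  · rw [if_pos hyr]
    refine ⟨Or.inl (by norm_num), ?_⟩
    by_cases hdy0 : 0 < det c c' (r y)
    · rw [if_pos hdy0]
      exact Or.inl (by norm_num)
    · rw [if_neg hdy0]
      have hdy1 : det c c' (r y) < 0 := lt_of_le_of_ne (not_lt.1 hdy0) hdy
      have zy0 : zy < 0 := by
        rw [dy] at hdy1
        rcases mul_neg_iff.1 hdy1 with h | h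
        · exact h.2
        · exact absurd (sub_pos.2 hyr) (not_lt.2 h.1.le)
      refine Or.inr ⟨rfl, Or.inl ?_⟩
      have : mu r c c' 1 y < 0 := by
        rw [my]; exact div_neg_of_pos_of_neg (by norm_num) zy0
      exact this.trans mx0
  · have hyl : (r y).1 < c'.1 := lt_of_le_of_ne (not_lt.1 hyr) hyne
    have hdy0 : 0 < det c c' (r y) := by
      rcases lt_or_gt_of_ne hdy with h | h
      · exact absurd ⟨h, hyl⟩ hAy
      · exact h
    have zy0 : zy < 0 := by
      rw [dy] at hdy0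
      rcases mul_pos_iff.1 hdy0 with h | h
      · exact absurd (sub_neg.2 hyl) (not_lt.2 h.1.le)
      · exact h.2
    rw [if_neg hyr, if_pos hdy0]
    refine ⟨Or.inr ⟨rfl, Or.inl ?_⟩, Or.inl (by norm_num)⟩
    have : zy < zx := zy0.trans zx0
    rw [hzx, hzy] at this
    nlinarith

/-- (N15) -/
lemma rotR (hb : Blue k r c') (hp : BPair k r c c') :
    Rot (2 * k + 1) (fun y => - vk k r c' y) (mk k r c c' 1)
      (fun x => det c c' (r x) < 0 ∧ (r x).1 < c'.1) :=
  ⟨fun _ hx _ hy hAx hAy => rotR_A hb hp hx hy hAx hAy,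
   fun _ hx _ hy hAx hAy => rotR_N hb hp hx hy hAx hAy,
   fun _ hx _ hy hAx hAy => rotR_AN hb hp hx hy hAx hAy⟩

/-- left end -/
lemma NN_left (hb : Blue k r c) (hp : BPair k r c c') {i : ℕ} (hi : i < 2 * k + 1) :
    NN k (mk k r c c' (-1)) i = NN k (vk k r c) i := by
  classical
  exact NN_rot (rotL hb hp) hi

/-- right end -/
lemma NN_right (hb : Blue k r c') (hp : BPair k r c c') {i : ℕ} (hi : i < 2 * k + 1) :
    NN k (mk k r c c' 1) i + NN k (vk k r c') i = 2 * k - i := by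
  classical
  rw [NN_rot (rotR hb hp) hi]
  exact NN_neg inj_vk hi

end Vale.Agent.P040.Rect
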