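import Vale.Agent.P040.Rect.Var
import Vale.Agent.P040.Rect.Radon
import Vale.Agent.P040.All.Therm

/-!
# Rectilinear Zarankiewicz: the geometric keys (rows G1 - G9)

Reds `r 0, …, r (2k)` sorted by abscissa.  `c`, `c'` are two blue points, `c` left of `c'`.
`det c c' (r x)` is (a positive multiple of) the height of `r x` over the line `c c'`.
See `notes/P040_rectilinear.md`; the parameter `s ∈ [-1,1]` used here is
`s = (p' - p) / (2 t - p - p')` where `t` is the abscissa of the moving point (`p`, `p'` the abscissae of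
`c`, `c'`), so that the whole path (from `c` to the left, through infinity, back to `c'`) is
`s : -1 → 1` and the key `mu` is AFFINE in `s`.
-/

namespace Vale.Agent.P040.Rect

open Finset Vale.Agent.P040.All

/-- `x, x'` on the same side of the line `b b'` and `b, b'` on the same side of the line `x x'` -/
def Good (b b' x x' : ℝ × ℝ) : Prop :=
  0 < det b b' x * det b b' x' ∧ 0 < det x x' b * det x x' b'

/-- the reds are sorted by abscissa -/
def Reds (k : ℕ) (r : ℕ → ℝ × ℝ) : Prop := ∀ i j, i < j → j < 2 * k + 1 → (r i).1 < (r j).1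

/-- a blue point in general position with respect to the reds -/
structure Blue (k : ℕ) (r : ℕ → ℝ × ℝ) (c : ℝ × ℝ) : Prop where
  ne : ∀ i < 2 * k + 1, (r i).1 ≠ c.1
  gp : ∀ i < 2 * k + 1, ∀ j < 2 * k + 1, i ≠ j → det (r i) (r j) c ≠ 0

/-- a pair of blue points, the first one on the left -/
structure BPair (k : ℕ) (r : ℕ → ℝ × ℝ) (c c' : ℝ × ℝ) : Prop where
  lt : c.1 < c'.1
  gp : ∀ i < 2 * k + 1, det c c' (r i) ≠ 0

/-- slope of the line `c P` -/
noncomputable def slope (c P : ℝ × ℝ) : ℝ := (P.2 - c.2) / (P.1 - c.1)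

/-- key of the counterclockwise rotation at `c`, starting from the direction `down`:
reds right of `c` by increasing slope, then reds left of `c` by increasing slope -/
noncomputable def VK (r : ℕ → ℝ × ℝ) (c : ℝ × ℝ) (x : ℕ) : Key :=
  key (if c.1 < (r x).1 then 0 else 1) (slope c (r x)) x

/-- integer version of `VK` -/
noncomputable def vk (k : ℕ) (r : ℕ → ℝ × ℝ) (c : ℝ × ℝ) : ℕ → ℤ := rk (2 * k + 1) (VK r c)

/-- the real key at the parameter `s` -/
noncomputable def mu (r : ℕ → ℝ × ℝ) (c c' : ℝ × ℝ) (s : ℝ) (x : ℕ) : ℝ :=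
  (s * (2 * (r x).1 - c.1 - c'.1) - (c'.1 - c.1)) / det c c' (r x)

/-- key of the arrangement at the parameter `s`: reds above the line by `mu`, then reds below the
line by `mu` -/
noncomputable def MK (r : ℕ → ℝ × ℝ) (c c' : ℝ × ℝ) (s : ℝ) (x : ℕ) : Key :=
  key (if 0 < det c c' (r x) then 0 else 1) (mu r c c' s x) x

/-- integer version of `MK` -/
noncomputable def mk (k : ℕ) (r : ℕ → ℝ × ℝ) (c c' : ℝ × ℝ) (s : ℝ) : ℕ → ℤ :=
  rk (2 * k + 1) (MK r c c' s)

/-- the parameter at which the moving point passes the abscissa of the red `i` -/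
noncomputable def sg (r : ℕ → ℝ × ℝ) (c c' : ℝ × ℝ) (i : ℕ) : ℝ :=
  (c'.1 - c.1) / (2 * (r i).1 - c.1 - c'.1)

variable {k : ℕ} {r : ℕ → ℝ × ℝ} {c c' : ℝ × ℝ}

/-- (G1) `rk_lt_iff`, `key_lt_iff`. -/
lemma vk_lt_iff {x y : ℕ} (hx : x < 2 * k + 1) :
    vk k r c x < vk k r c y ↔
      ((if c.1 < (r x).1 then (0 : ℤ) else 1) < (if c.1 < (r y).1 then (0 : ℤ) else 1)) ∨
      ((if c.1 < (r x).1 then (0 : ℤ) else 1) = (if c.1 < (r y).1 then (0 : ℤ) else 1) ∧
        (slope c (r x) < slope c (r y) ∨ (slope c (r x) = slope c (r y) ∧ x < y))) := by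
  unfold vk
  rw [rk_lt_iff hx]
  unfold VK
  rw [key_lt_iff]

/-- (G2) `rk_lt_iff`, `key_lt_iff`. -/
lemma mk_lt_iff {s : ℝ} {x y : ℕ} (hx : x < 2 * k + 1) :
    mk k r c c' s x < mk k r c c' s y ↔
      ((if 0 < det c c' (r x) then (0 : ℤ) else 1) < (if 0 < det c c' (r y) then (0 : ℤ) else 1)) ∨
      ((if 0 < det c c' (r x) then (0 : ℤ) else 1) = (if 0 < det c c' (r y) then (0 : ℤ) else 1) ∧
        (mu r c c' s x < mu r c c' s y ∨ (mu r c c' s x = mu r c c' s y ∧ x < y))) := by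
  unfold mk
  rw [rk_lt_iff hx]
  unfold MK
  rw [key_lt_iff]

/-- (G3) `rk_inj`, `key_inj`. -/
lemma inj_vk : Inj (2 * k + 1) (vk k r c) := by
  unfold vk
  exact rk_inj (fun x _ y _ h => key_inj h)

/-- (G4) `rk_inj`, `key_inj`. -/
lemma inj_mk (s : ℝ) : Inj (2 * k + 1) (mk k r c c' s) := by
  unfold mk
  exact rk_inj (fun x _ y _ h => key_inj h)

/-- (G5) an affine function that is `≤ 0` (resp. `> 0`) at `s₁` and `s₃` is so at `s₂ ∈ [s₁,s₃]`.
Cases on the sign of `α`; `nlinarith`. -/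
lemma affine_between (α β s₁ s₂ s₃ : ℝ) (h₁ : s₁ ≤ s₂) (h₂ : s₂ ≤ s₃)
    (h : α * s₁ + β ≤ 0 ↔ α * s₃ + β ≤ 0) : (α * s₁ + β ≤ 0 ↔ α * s₂ + β ≤ 0) := by
  rcases le_total 0 α with ha | ha
  · have e1 : α * s₁ ≤ α * s₂ := mul_le_mul_of_nonneg_left h₁ ha
    have e2 : α * s₂ ≤ α * s₃ := mul_le_mul_of_nonneg_left h₂ ha
    constructor
    · intro h0
      have := h.1 h0
      linarith
    · intro h0
      linarith
  · have e1 : α * s₂ ≤ α * s₁ := mul_le_mul_of_nonpos_left h₁ ha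
    have e2 : α * s₃ ≤ α * s₂ := mul_le_mul_of_nonpos_left h₂ ha
    constructor
    · intro h0
      linarith
    · intro h0
      have : α * s₃ + β ≤ 0 := by linarith
      exact h.2 this

/-- (G6) `mu` is affine in `s` (`mu`, `sub_div`, `mul_div_assoc`; `ring`). -/
lemma mu_sub (s : ℝ) (x y : ℕ) :
    mu r c c' s x - mu r c c' s y =
      ((2 * (r x).1 - c.1 - c'.1) / det c c' (r x) - (2 * (r y).1 - c.1 - c'.1) / det c c' (r y)) * s
      + ((c'.1 - c.1) / det c c' (r y) - (c'.1 - c.1) / det c c' (r x)) := by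
  unfold mu
  ring

/-- (G7) for `x < y` the tie-break makes the comparison `mu x ≤ mu y` (from G2). -/
lemma mk_lt_iff_of_lt {s : ℝ} {x y : ℕ} (hxy : x < y) (hy : y < 2 * k + 1) :
    mk k r c c' s x < mk k r c c' s y ↔
      ((if 0 < det c c' (r x) then (0 : ℤ) else 1) < (if 0 < det c c' (r y) then (0 : ℤ) else 1)) ∨
      ((if 0 < det c c' (r x) then (0 : ℤ) else 1) = (if 0 < det c c' (r y) then (0 : ℤ) else 1) ∧
        mu r c c' s x - mu r c c' s y ≤ 0) := by
  rw [mk_lt_iff (by omega)]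
  constructor
  · rintro (h | ⟨h1, h2⟩)
    · exact Or.inl h
    · refine Or.inr ⟨h1, ?_⟩
      rcases h2 with h2 | ⟨h2, _⟩ <;> linarith
  · rintro (h | ⟨h1, h2⟩)
    · exact Or.inl h
    · refine Or.inr ⟨h1, ?_⟩
      rcases lt_or_eq_of_le (sub_nonpos.1 h2) with h3 | h3
      · exact Or.inl h3
      · exact Or.inr ⟨h3, hxy⟩

/-- (G8) every pair is reordered at most once: G7, G6, G5 (the block conditions do not depend on
`s`: `by_cases` on them). -/
lemma betw_mk : Betw (2 * k + 1) (mk k r c c') := by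
  intro s₁ s₂ s₃ h₁ h₂ x y hxy hy h
  rw [mk_lt_iff_of_lt hxy hy, mk_lt_iff_of_lt hxy hy] at h
  rw [mk_lt_iff_of_lt hxy hy, mk_lt_iff_of_lt hxy hy]
  rw [mu_sub, mu_sub] at h
  rw [mu_sub, mu_sub]
  by_cases hA : ((if 0 < det c c' (r x) then (0 : ℤ) else 1) < (if 0 < det c c' (r y) then (0 : ℤ) else 1))
  · simp only [hA, true_or]
  · by_cases hB : ((if 0 < det c c' (r x) then (0 : ℤ) else 1) = (if 0 < det c c' (r y) then (0 : ℤ) else 1))
    · simp only [hB, lt_irrefl, false_or, true_and] at h ⊢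
      exact affine_between _ _ s₁ s₂ s₃ h₁ h₂ h
    · simp only [hA, hB, false_or, false_and]

/-- (G9) `|sg i| ≤ 1` for a red that is not between `c` and `c'` (`div_le_one`, `le_div_iff`, signs). -/
lemma sg_mem (hp : c.1 < c'.1) {i : ℕ} (hi : (r i).1 < c.1 ∨ c'.1 < (r i).1) :
    -1 ≤ sg r c c' i ∧ sg r c c' i ≤ 1 := by
  unfold sg
  rcases hi with hi | hi
  · have hneg : 2 * (r i).1 - c.1 - c'.1 < 0 := by linarith
    constructor
    · rw [le_div_iff_of_neg hneg]
      linarith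
    · rw [div_le_iff_of_neg hneg]
      linarith
  · have hpos : 0 < 2 * (r i).1 - c.1 - c'.1 := by linarith
    constructor
    · rw [le_div_iff₀ hpos]
      linarith
    · rw [div_le_iff₀ hpos]
      linarith

end Vale.Agent.P040.Rect
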