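import Vale.Agent.P040.Rect.Radon

/-!
# Small geometric tools: collinearity and `det`, shears
-/

namespace Vale.Agent.P040.Rect

/-- three points with vanishing determinant are collinear -/
lemma collinear_of_det_eq_zero (a b c : ℝ × ℝ) (h : det a b c = 0) : Collinear ℝ {a, b, c} := by
  unfold det at h
  rw [collinear_iff_of_mem (p₀ := a) (by simp)]
  by_cases h1 : b.1 - a.1 = 0
  · by_cases h2 : b.2 - a.2 = 0
    · refine ⟨c - a, ?_⟩
      intro p hp
      simp only [Set.mem_insert_iff, Set.mem_singleton_iff] at hp
      rcases hp with rfl | rfl | rfl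
      · exact ⟨0, by simp⟩
      · refine ⟨0, ?_⟩
        ext
        · simp; linarith
        · simp; linarith
      · exact ⟨1, by simp⟩
    · refine ⟨b - a, ?_⟩
      intro p hp
      simp only [Set.mem_insert_iff, Set.mem_singleton_iff] at hp
      rcases hp with rfl | rfl | rfl
      · exact ⟨0, by simp⟩
      · exact ⟨1, by simp⟩
      · refine ⟨(p.2 - a.2) / (b.2 - a.2), ?_⟩
        have h3 : p.1 - a.1 = 0 := by
          rw [h1] at h
          have : (b.2 - a.2) * (p.1 - a.1) = 0 := by linarith
          rcases mul_eq_zero.mp this with h4 | h4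
          · exact absurd h4 h2
          · exact h4
        ext
        · simp only [vadd_eq_add, Prod.fst_add, Prod.smul_fst, Prod.fst_sub, smul_eq_mul]
          rw [h1]; linarith
        · simp only [vadd_eq_add, Prod.snd_add, Prod.smul_snd, Prod.snd_sub, smul_eq_mul]
          field_simp
          ring
  · refine ⟨b - a, ?_⟩
    intro p hp
    simp only [Set.mem_insert_iff, Set.mem_singleton_iff] at hp
    rcases hp with rfl | rfl | rfl
    · exact ⟨0, by simp⟩
    · exact ⟨1, by simp⟩
    · refine ⟨(p.1 - a.1) / (b.1 - a.1), ?_⟩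
      ext
      · simp only [vadd_eq_add, Prod.fst_add, Prod.smul_fst, Prod.fst_sub, smul_eq_mul]
        field_simp
        ring
      · simp only [vadd_eq_add, Prod.snd_add, Prod.smul_snd, Prod.snd_sub, smul_eq_mul]
        field_simp
        linarith

/-- the shear `(x, y) ↦ (x + ε y, y)` -/
def shear (ε : ℝ) (p : ℝ × ℝ) : ℝ × ℝ := (p.1 + ε * p.2, p.2)

lemma det_shear (ε : ℝ) (a b c : ℝ × ℝ) : det (shear ε a) (shear ε b) (shear ε c) = det a b c := by
  unfold det shear
  ring

/-- a shear that makes the abscissae of finitely many distinct points distinct -/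
lemma exists_shear {ι : Type*} [Finite ι] (f : ι → ℝ × ℝ) (hf : Function.Injective f) :
    ∃ ε : ℝ, Function.Injective fun a => (shear ε (f a)).1 := by
  have hfin : (Set.range fun p : ι × ι =>
      ((f p.2).1 - (f p.1).1) / ((f p.1).2 - (f p.2).2)).Finite := Set.finite_range _
  obtain ⟨ε, hε⟩ := hfin.exists_notMem
  refine ⟨ε, ?_⟩
  intro a b hab
  simp only [shear] at hab
  by_contra hne
  by_cases h2 : (f a).2 = (f b).2
  · apply hne
    apply hf
    ext
    · rw [h2] at hab; linarith
    · exact h2
  · apply hε
    refine ⟨(a, b), ?_⟩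
    have h3 : (f a).2 - (f b).2 ≠ 0 := sub_ne_zero.mpr h2
    simp only
    field_simp
    linarith

end Vale.Agent.P040.Rect
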