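import Vale.Agent.P040.Rect.Reduce
import Vale.Agent.P040.Lin.Pair

/-!
# The Zarankiewicz bound for all rectilinear drawings of `K_{m,n}`

Assembly: the pair inequality `Lin.pair_ineq` (reds sorted by abscissa), shear, relabelling,
counting, deletion of a red vertex for even `m`.
-/

namespace Vale.Agent.P040.Rect

open Finset Vale.Agent.P040.All Vale.Agent.P040.Lin

variable {n : ℕ}

lemma mem_segment_of_shear (ε : ℝ) (a b z : ℝ × ℝ) (h : z ∈ segment ℝ (shear ε a) (shear ε b)) :
    shear (-ε) z ∈ segment ℝ a b := by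
  obtain ⟨s, t, hs, ht, hst, rfl⟩ := h
  refine ⟨s, t, hs, ht, hst, ?_⟩
  ext
  · simp only [shear, Prod.fst_add, Prod.smul_fst, smul_eq_mul, Prod.snd_add, Prod.smul_snd]
    ring
  · simp only [shear, Prod.snd_add, Prod.smul_snd, smul_eq_mul]

lemma meet_of_shear (ε : ℝ) (a b c d : ℝ × ℝ)
    (h : (segment ℝ (shear ε a) (shear ε b) ∩ segment ℝ (shear ε c) (shear ε d)).Nonempty) :
    (segment ℝ a b ∩ segment ℝ c d).Nonempty := by
  obtain ⟨z, h1, h2⟩ := h
  exact ⟨shear (-ε) z, mem_segment_of_shear ε a b z h1, mem_segment_of_shear ε c d z h2⟩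

lemma crR_swap (k : ℕ) (r : ℕ → ℝ × ℝ) (b b' : ℝ × ℝ) : crR k r b' b = crR k r b b' := by
  classical
  unfold crR
  apply card_bij (fun z _ => (z.2, z.1))
  · intro z hz
    simp only [mem_filter, mem_product, mem_range] at hz ⊢
    refine ⟨⟨hz.1.2, hz.1.1⟩, hz.2.1.symm, ?_⟩
    rw [Set.inter_comm]
    exact hz.2.2
  · intro z _ z' _ h
    simp only [Prod.mk.injEq] at h
    exact Prod.ext h.2 h.1
  · intro z hz
    simp only [mem_filter, mem_product, mem_range] at hz
    refine ⟨(z.2, z.1), ?_, rfl⟩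
    simp only [mem_filter, mem_product, mem_range]
    refine ⟨⟨hz.1.2, hz.1.1⟩, hz.2.1.symm, ?_⟩
    rw [Set.inter_comm]
    exact hz.2.2

lemma crR_le_pc (k : ℕ) (D : RectDrawing (2 * k + 1) n) (ε : ℝ)
    (σ : Equiv.Perm (Fin (2 * k + 1))) (j j' : Fin n) :
    crR k (fun x => shear ε (D.red (σ (Fin.ofNat (2 * k + 1) x))))
      (shear ε (D.blue j)) (shear ε (D.blue j')) ≤ D.pc j j' := by
  classical
  unfold crR RectDrawing.pc
  set s : ℕ → Fin (2 * k + 1) := fun x => σ (Fin.ofNat (2 * k + 1) x) with hs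
  have hsinj : ∀ x < 2 * k + 1, ∀ y < 2 * k + 1, s x = s y → x = y := by
    intro x hx y hy h
    have h1 : Fin.ofNat (2 * k + 1) x = Fin.ofNat (2 * k + 1) y := σ.injective h
    have h2 := congrArg Fin.val h1
    simp only [Fin.val_ofNat] at h2
    rwa [Nat.mod_eq_of_lt hx, Nat.mod_eq_of_lt hy] at h2
  apply card_le_card_of_injOn (fun q => (s q.1, s q.2))
  · intro q hq
    simp only [coe_filter, mem_product, mem_range, Set.mem_ofPred_eq] at hq
    obtain ⟨⟨hq1, hq2⟩, hne, hmeet⟩ := hq
    simp only [coe_filter, mem_univ, true_and, Set.mem_ofPred_eq]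
    refine ⟨fun h => hne (hsinj _ hq1 _ hq2 h), ?_⟩
    unfold RectDrawing.Cross
    rw [segment_symm ℝ (D.red _) (D.blue j), segment_symm ℝ (D.red _) (D.blue j')]
    exact meet_of_shear ε _ _ _ _ hmeet
  · intro q hq q' hq' h
    simp only [coe_filter, mem_product, mem_range, Set.mem_ofPred_eq] at hq hq'
    simp only [Prod.mk.injEq] at h
    exact Prod.ext (hsinj _ hq.1.1 _ hq'.1.1 h.1) (hsinj _ hq.1.2 _ hq'.1.2 h.2)

/-- The Zarankiewicz bound for rectilinear drawings of `K_{2k+1,n}`. -/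
theorem rect_odd (k n : ℕ) (D : RectDrawing (2 * k + 1) n) :
    k * k * ((n / 2) * ((n - 1) / 2)) ≤ D.crossings := by
  classical
  by_cases hn : n < 2
  · have : (n / 2) * ((n - 1) / 2) = 0 := by
      interval_cases n <;> simp
    rw [this]; simp
  have hn2 : 2 ≤ n := by omega
  have hinj := points_injective D (by omega) hn2
  obtain ⟨ε, hε⟩ := exists_shear _ hinj
  set φ : Fin (2 * k + 1) → ℝ := fun i => (shear ε (D.red i)).1 with hφ
  have hφinj : Function.Injective φ := by
    intro i i' h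
    have := hε (a₁ := Sum.inl i) (a₂ := Sum.inl i') h
    exact Sum.inl_injective this
  set σ : Equiv.Perm (Fin (2 * k + 1)) := Tuple.sort φ with hσ
  have hmono : StrictMono (φ ∘ σ) :=
    (Tuple.monotone_sort φ).strictMono_of_injective (hφinj.comp σ.injective)
  set R : ℕ → ℝ × ℝ := fun x => shear ε (D.red (σ (Fin.ofNat (2 * k + 1) x))) with hR
  set B : Fin n → ℝ × ℝ := fun j => shear ε (D.blue j) with hB
  have hRmono : ∀ x y, x < y → y < 2 * k + 1 → (R x).1 < (R y).1 := by
    intro x y hxy hy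
    apply hmono
    rw [Fin.lt_def]
    simp only [Fin.val_ofNat]
    rw [Nat.mod_eq_of_lt hy, Nat.mod_eq_of_lt (by omega)]
    exact hxy
  have hRB : ∀ x j, (R x).1 ≠ (B j).1 := by
    intro x j h
    have := hε (a₁ := Sum.inl (σ (Fin.ofNat (2 * k + 1) x))) (a₂ := Sum.inr j) h
    exact Sum.inl_ne_inr this
  have hBB : ∀ j j', j ≠ j' → (B j).1 ≠ (B j').1 := by
    intro j j' hne h
    have := hε (a₁ := Sum.inr j) (a₂ := Sum.inr j') h
    exact hne (Sum.inr_injective this)
  have hsne : ∀ x < 2 * k + 1, ∀ y < 2 * k + 1, x ≠ y →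
      σ (Fin.ofNat (2 * k + 1) x) ≠ σ (Fin.ofNat (2 * k + 1) y) := by
    intro x hx y hy hne h
    have h1 : Fin.ofNat (2 * k + 1) x = Fin.ofNat (2 * k + 1) y := σ.injective h
    have h2 := congrArg Fin.val h1
    simp only [Fin.val_ofNat] at h2
    rw [Nat.mod_eq_of_lt hx, Nat.mod_eq_of_lt hy] at h2
    exact hne h2
  have hd1 : ∀ j j', j ≠ j' → ∀ x < 2 * k + 1, det (B j) (B j') (R x) ≠ 0 := by
    intro j j' hne x _
    simp only [hB, hR, det_shear]
    have := det_blue_ne D (σ (Fin.ofNat (2 * k + 1) x)) j j' hne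
    intro h0
    apply this
    rw [← h0]
    unfold det; ring
  have hd2 : ∀ j, ∀ x y, x < y → y < 2 * k + 1 → det (B j) (R x) (R y) ≠ 0 := by
    intro j x y hxy hy
    simp only [hB, hR, det_shear]
    have := det_red_ne D _ _ j (hsne x (by omega) y hy (ne_of_lt hxy))
    intro h0
    apply this
    rw [← h0]
    unfold det; ring
  have hgen : ∀ j j', j ≠ j' → (B j).1 < (B j').1 → Gen k R (B j) (B j') := by
    intro j j' hne h
    exact ⟨hRmono, h, fun x _ => hRB x j, fun x _ => hRB x j', hd1 j j' hne, hd2 j, hd2 j'⟩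
  have hpair : ∀ j j' : Fin n, j < j' →
      ((II k).filter fun f => PhiR k R f (B j) = PhiR k R f (B j')).card ≤ D.pc j j' := by
    intro j j' hlt
    have hne : j ≠ j' := ne_of_lt hlt
    rcases lt_or_gt_of_ne (hBB j j' hne) with h | h
    · exact (pair_ineq (hgen j j' hne h)).trans (crR_le_pc k D ε σ j j')
    · have h1 := pair_ineq (hgen j' j hne.symm h)
      rw [crR_swap] at h1
      have h3 : ((II k).filter fun f => PhiR k R f (B j) = PhiR k R f (B j')) =
          ((II k).filter fun f => PhiR k R f (B j') = PhiR k R f (B j)) := by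
        apply filter_congr
        intro f _
        exact eq_comm
      rw [h3]
      exact h1.trans (crR_le_pc k D ε σ j j')
  have := feat_count (II k) (fun f j => PhiR k R f (B j)) D.pc hpair
  rw [card_II] at this
  exact this.trans (sum_pc_le D)

/-- **The Zarankiewicz bound for all rectilinear drawings of `K_{m,n}`.** -/
theorem rect_all (m n : ℕ) (D : RectDrawing m n) :
    (m / 2) * ((m - 1) / 2) * ((n / 2) * ((n - 1) / 2)) ≤ D.crossings :=
  all_of_odd rect_odd m n D

end Vale.Agent.P040.Rect
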