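import Vale.Agent.P040.Rect.Pass
import Vale.Agent.P040.Rect.Ends
import Vale.Agent.P040.Rect.DiscGood

/-!
# Rectilinear Zarankiewicz: the pair inequality (rows Q1 - Q6)
-/

namespace Vale.Agent.P040.Rect

open Finset Vale.Agent.P040.All

/-- `ξ_i(c) = N_i(π_c) - lo_i` -/
noncomputable def xiR (k : ℕ) (r : ℕ → ℝ × ℝ) (c : ℝ × ℝ) (i : ℕ) : ℕ := NN k (vk k r c) i - (k - i)

/-- the feature `(i, τ)` of the blue point `c`: thermometer code of `ξ_i(c)`, filled from the bottom if
`c` is left of the red `i`, from the top otherwise -/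
noncomputable def PhiR (k : ℕ) (r : ℕ → ℝ × ℝ) (f : ℕ × ℕ) (c : ℝ × ℝ) : Bool :=
  if c.1 < (r f.1).1 then decide (f.2 < xiR k r c f.1) else decide (wd k f.1 ≤ f.2 + xiR k r c f.1)

variable {k : ℕ} {r : ℕ → ℝ × ℝ} {c c' : ℝ × ℝ}

/-- (Q1) `NN_ge`, `NN_le_k`, `NN_le_sub`, `inj_vk`; `unfold xiR wd`; `omega`. -/
lemma xiR_spec {i : ℕ} (hi : i < 2 * k + 1) :
    xiR k r c i ≤ wd k i ∧ NN k (vk k r c) i = xiR k r c i + (k - i) := by
  have h1 := NN_ge (k := k) (κ := vk k r c) inj_vk hi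
  have h2 := NN_le_k (k := k) (κ := vk k r c) inj_vk hi
  have h3 := NN_le_sub (k := k) (κ := vk k r c) i
  unfold xiR wd
  omega

/-- (Q2) row of a red between `c` and `c'`: `PhiR` of `c` is filled from the bottom, `PhiR` of `c'` from
the top: `therm_bt`, Q1, `NN_left`, `NN_right`; `2 (k - i) + wd k i = 2k - i`; `abs` cases, `omega`. -/
lemma row_between (hb : Blue k r c) (hb' : Blue k r c') (hp : BPair k r c c') {i : ℕ}
    (hi : i < 2 * k + 1) (h1 : c.1 < (r i).1) (h2 : (r i).1 < c'.1) :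
    (((range (wd k i)).filter fun τ => PhiR k r (i, τ) c = PhiR k r (i, τ) c').card : ℤ) ≤
      |(NN k (mk k r c c' (-1)) i : ℤ) - NN k (mk k r c c' 1) i| := by
  have h2' : ¬ c'.1 < (r i).1 := not_lt.2 h2.le
  obtain ⟨ha, ea⟩ := xiR_spec (k := k) (r := r) (c := c) hi
  obtain ⟨hb2, eb⟩ := xiR_spec (k := k) (r := r) (c := c') hi
  have e1 := NN_left hb hp hi
  have e2 := NN_right hb' hp hi
  have ht := therm_bt ha hb2
  have hf : ((range (wd k i)).filter fun τ => PhiR k r (i, τ) c = PhiR k r (i, τ) c') =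
      ((range (wd k i)).filter fun τ =>
        decide (τ < xiR k r c i) = decide (wd k i ≤ τ + xiR k r c' i)) := by
    apply filter_congr
    intro τ _
    unfold PhiR
    simp only [h1, h2', if_true, if_false]
  rw [hf]
  have g1 := le_abs_self ((NN k (mk k r c c' (-1)) i : ℤ) - NN k (mk k r c c' 1) i)
  have g2 := neg_abs_le ((NN k (mk k r c c' (-1)) i : ℤ) - NN k (mk k r c c' 1) i)
  unfold wd at ht ha hb2 ⊢
  omega

/-- (Q3) row of a red left of `c` (both thermometers filled from the top: `therm_tt`) or right of `c'`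
(both from the bottom: `therm_bb`): agreements `≤ w - |ξ - ξ'|`; the middle value `e` is `k - i` or
`min k (2k - i)` (`NN_pass`); `NN_left`, `NN_right`, Q1; `abs` cases, `omega`. -/
lemma row_outside (hr : Reds k r) (hb : Blue k r c) (hb' : Blue k r c') (hp : BPair k r c c') {i : ℕ}
    (hi : i < 2 * k + 1) (h : (r i).1 < c.1 ∨ c'.1 < (r i).1) :
    (((range (wd k i)).filter fun τ => PhiR k r (i, τ) c = PhiR k r (i, τ) c').card : ℤ) ≤
      |(NN k (mk k r c c' (-1)) i : ℤ) - NN k (mk k r c c' (sg r c c' i)) i| +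
      |(NN k (mk k r c c' (sg r c c' i)) i : ℤ) - NN k (mk k r c c' 1) i| := by
  obtain ⟨ha, ea⟩ := xiR_spec (k := k) (r := r) (c := c) hi
  obtain ⟨hb2, eb⟩ := xiR_spec (k := k) (r := r) (c := c') hi
  have e1 := NN_left hb hp hi
  have e2 := NN_right hb' hp hi
  have e3 := NN_pass hr hp hi h
  have g1 := le_abs_self ((NN k (mk k r c c' (-1)) i : ℤ) - NN k (mk k r c c' (sg r c c' i)) i)
  have g2 := neg_abs_le ((NN k (mk k r c c' (-1)) i : ℤ) - NN k (mk k r c c' (sg r c c' i)) i)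
  have g3 := le_abs_self ((NN k (mk k r c c' (sg r c c' i)) i : ℤ) - NN k (mk k r c c' 1) i)
  have g4 := neg_abs_le ((NN k (mk k r c c' (sg r c c' i)) i : ℤ) - NN k (mk k r c c' 1) i)
  have hlt := hp.lt
  rcases h with h | h
  · have h1 : ¬ c.1 < (r i).1 := not_lt.2 h.le
    have h2 : ¬ c'.1 < (r i).1 := not_lt.2 (h.le.trans hlt.le)
    have ht := therm_tt ha hb2
    have hf : ((range (wd k i)).filter fun τ => PhiR k r (i, τ) c = PhiR k r (i, τ) c') =
        ((range (wd k i)).filter fun τ =>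
          decide (wd k i ≤ τ + xiR k r c i) = decide (wd k i ≤ τ + xiR k r c' i)) := by
      apply filter_congr
      intro τ _
      unfold PhiR
      simp only [h1, h2, if_false]
    rw [hf]
    unfold wd at ht ha hb2 ⊢
    rcases e3 with e3 | e3 <;> omega
  · have h1 : c.1 < (r i).1 := hlt.trans h
    have ht := therm_bb ha hb2
    have hf : ((range (wd k i)).filter fun τ => PhiR k r (i, τ) c = PhiR k r (i, τ) c') =
        ((range (wd k i)).filter fun τ =>
          decide (τ < xiR k r c i) = decide (τ < xiR k r c' i)) := by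
      apply filter_congr
      intro τ _
      unfold PhiR
      simp only [h1, h, if_true]
    rw [hf]
    unfold wd at ht ha hb2 ⊢
    rcases e3 with e3 | e3 <;> omega

open Classical in
/-- (Q4) the rows together: `term` with `I` = the reds that are not between `c` and `c'`. -/
lemma row_le_term (hr : Reds k r) (hb : Blue k r c) (hb' : Blue k r c') (hp : BPair k r c c') {i : ℕ}
    (hi : i < 2 * k + 1) :
    (((range (wd k i)).filter fun τ => PhiR k r (i, τ) c = PhiR k r (i, τ) c').card : ℤ) ≤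
      term k (mk k r c c')
        ((range (2 * k + 1)).filter fun i => (r i).1 < c.1 ∨ c'.1 < (r i).1) (sg r c c') (-1) 1 i := by
  unfold term
  by_cases h : (r i).1 < c.1 ∨ c'.1 < (r i).1
  · have hm : i ∈ (range (2 * k + 1)).filter fun i => (r i).1 < c.1 ∨ c'.1 < (r i).1 :=
      mem_filter.2 ⟨mem_range.2 hi, h⟩
    rw [if_pos hm]
    exact row_outside hr hb hb' hp hi h
  · have hm : i ∉ (range (2 * k + 1)).filter fun i => (r i).1 < c.1 ∨ c'.1 < (r i).1 :=
      fun hm => h (mem_filter.1 hm).2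
    rw [if_neg hm]
    push_neg at h
    exact row_between hb hb' hp hi (lt_of_le_of_ne h.1 (hb.ne i hi).symm)
      (lt_of_le_of_ne h.2 (hb'.ne i hi))

open Classical in
/-- **The pair inequality** in structured form. -/
theorem pair_ineq' (hr : Reds k r) (hb : Blue k r c) (hb' : Blue k r c') (hp : BPair k r c c') :
    ((II k).filter fun f => PhiR k r f c = PhiR k r f c').card ≤
      (((range (2 * k + 1)) ×ˢ (range (2 * k + 1))).filter
        fun q => q.1 < q.2 ∧ Good c c' (r q.1) (r q.2)).card := by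
  refine le_trans ?_ (disc_le_good hb hb' hp)
  rw [card_filter_II]
  have h1 := var_le (k := k) (c := mk k r c c') (fun s => inj_mk s) betw_mk (sg r c c') _
    ((range (2 * k + 1)).filter fun i => (r i).1 < c.1 ∨ c'.1 < (r i).1) (-1) 1 le_rfl (by norm_num)
    (fun i hi => sg_mem hp.lt (mem_filter.1 hi).2)
  have h2 : ((∑ x ∈ range (2 * k + 1),
      ((range (wd k x)).filter fun τ => PhiR k r (x, τ) c = PhiR k r (x, τ) c').card : ℕ) : ℤ) ≤
      ∑ i ∈ range (2 * k + 1), term k (mk k r c c')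
        ((range (2 * k + 1)).filter fun i => (r i).1 < c.1 ∨ c'.1 < (r i).1) (sg r c c') (-1) 1 i := by
    push_cast
    exact sum_le_sum fun i hi => row_le_term hr hb hb' hp (mem_range.1 hi)
  exact_mod_cast h2.trans h1

open Classical in
/-- **The pair inequality**, interface for the outer part. -/
theorem pair_ineq (k : ℕ) (R : ℕ → ℝ × ℝ)
    (hR : ∀ x y, x < y → y < 2 * k + 1 → (R x).1 < (R y).1) (b b' : ℝ × ℝ) (hbb : b.1 < b'.1)
    (hb : ∀ x < 2 * k + 1, (R x).1 ≠ b.1) (hb' : ∀ x < 2 * k + 1, (R x).1 ≠ b'.1)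
    (h1 : ∀ x < 2 * k + 1, det b b' (R x) ≠ 0)
    (h2 : ∀ x < 2 * k + 1, ∀ y < 2 * k + 1, x ≠ y → det (R x) (R y) b ≠ 0)
    (h3 : ∀ x < 2 * k + 1, ∀ y < 2 * k + 1, x ≠ y → det (R x) (R y) b' ≠ 0) :
    ((II k).filter fun f => PhiR k R f b = PhiR k R f b').card ≤
      (((range (2 * k + 1)) ×ˢ (range (2 * k + 1))).filter
        fun q => q.1 < q.2 ∧ Good b b' (R q.1) (R q.2)).card :=
  pair_ineq' hR ⟨hb, h2⟩ ⟨hb', h3⟩ ⟨hbb, h1⟩

end Vale.Agent.P040.Rect
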