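import Vale.Agent.P040.Rect.Geo

/-!
# Rectilinear Zarankiewicz: the moment when the moving point passes the abscissa of a red
(rows E1 - E8)
-/

namespace Vale.Agent.P040.Rect

open Finset Vale.Agent.P040.All

variable {k : ℕ} {r : ℕ → ℝ × ℝ} {c c' : ℝ × ℝ}

/-- (E1) value of `mu` at the parameter `sg i` (`field_simp`, `ring`). -/
lemma mu_sg {i : ℕ} (hi : 2 * (r i).1 - c.1 - c'.1 ≠ 0) (x : ℕ) :
    mu r c c' (sg r c c' i) x =
      (2 * (c'.1 - c.1) * ((r x).1 - (r i).1)) /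
        ((2 * (r i).1 - c.1 - c'.1) * det c c' (r x)) := by
  unfold mu sg
  by_cases hd : det c c' (r x) = 0
  · rw [hd]; simp
  · field_simp
    ring

/-- (E2) from E1. -/
lemma mu_sg_self {i : ℕ} (hi : 2 * (r i).1 - c.1 - c'.1 ≠ 0) :
    mu r c c' (sg r c c' i) i = 0 := by
  rw [mu_sg hi]
  simp

/-- (E3) sign of `mu (sg i) x`, positive case: from E1; `e = 2 a_i - p - p'`, `d = a_x - a_i`,
`h = det c c' (r x)`; `div_pos`, `mul_pos`, … -/
lemma mu_sg_pos (hp : c.1 < c'.1) {i x : ℕ}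
    (h : 0 < ((r x).1 - (r i).1) * ((2 * (r i).1 - c.1 - c'.1) * det c c' (r x))) :
    0 < mu r c c' (sg r c c' i) x := by
  have hw : 0 < c'.1 - c.1 := by linarith
  have he : 2 * (r i).1 - c.1 - c'.1 ≠ 0 := by
    intro h0
    rw [h0] at h
    simp at h
  rw [mu_sg he]
  rcases (mul_pos_iff.mp h) with ⟨h1, h2⟩ | ⟨h1, h2⟩
  · exact div_pos (mul_pos (by linarith) h1) h2
  · exact div_pos_of_neg_of_neg (mul_neg_of_pos_of_neg (by linarith) h1) h2

/-- (E4) sign of `mu (sg i) x`, negative case. -/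
lemma mu_sg_neg (hp : c.1 < c'.1) {i x : ℕ}
    (h : ((r x).1 - (r i).1) * ((2 * (r i).1 - c.1 - c'.1) * det c c' (r x)) < 0) :
    mu r c c' (sg r c c' i) x < 0 := by
  have hi : 2 * (r i).1 - c.1 - c'.1 ≠ 0 := by
    intro h0
    rw [h0] at h
    simp at h
  rw [mu_sg hi]
  have hne : (2 * (r i).1 - c.1 - c'.1) * det c c' (r x) ≠ 0 := by
    intro h0
    rw [h0] at h
    simp at h
  have hu : 0 < 2 * (c'.1 - c.1) := by linarith
  rcases lt_or_gt_of_ne hne with h1 | h1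
  · have h2 : 0 < (r x).1 - (r i).1 := by
      by_contra h3
      push Not at h3
      have := mul_nonneg_of_nonpos_of_nonpos h3 h1.le
      linarith
    exact div_neg_of_pos_of_neg (mul_pos hu h2) h1
  · have h2 : (r x).1 - (r i).1 < 0 := by
      by_contra h3
      push Not at h3
      have := mul_nonneg h3 h1.le
      linarith
    exact div_neg_of_neg_of_pos (mul_neg_of_pos_of_neg hu h2) h1

private lemma lt_UU {s : ℝ} {x y : ℕ} (hx : x < 2 * k + 1) (h1 : 0 < det c c' (r x))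
    (h2 : 0 < det c c' (r y)) (h : mu r c c' s x < mu r c c' s y) :
    mk k r c c' s x < mk k r c c' s y := by
  rw [mk_lt_iff hx]
  right
  rw [if_pos h1, if_pos h2]
  exact ⟨rfl, Or.inl h⟩

private lemma lt_UD {s : ℝ} {x y : ℕ} (hx : x < 2 * k + 1) (h1 : 0 < det c c' (r x))
    (h2 : det c c' (r y) < 0) : mk k r c c' s x < mk k r c c' s y := by
  rw [mk_lt_iff hx]
  left
  rw [if_pos h1, if_neg (not_lt.2 h2.le)]
  exact zero_lt_one

private lemma lt_DD {s : ℝ} {x y : ℕ} (hx : x < 2 * k + 1) (h1 : det c c' (r x) < 0)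
    (h2 : det c c' (r y) < 0) (h : mu r c c' s x < mu r c c' s y) :
    mk k r c c' s x < mk k r c c' s y := by
  rw [mk_lt_iff hx]
  right
  rw [if_neg (not_lt.2 h1.le), if_neg (not_lt.2 h2.le)]
  exact ⟨rfl, Or.inl h⟩

/-- (E5) `i` left of `c`, above the line: the arrangement at `sg i` is
`[U larger] i [U smaller][D smaller][D larger]`.  Use `mk_lt_iff`, E2 - E4, `Reds` (sign of
`a_x - a_i`), `BPair.gp` (`det ≠ 0`), and `2 a_i - p - p' < 0`. -/
lemma blk_left_up (hr : Reds k r) (hp : BPair k r c c') {i : ℕ} (hi : i < 2 * k + 1)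
    (hl : (r i).1 < c.1) (hu : 0 < det c c' (r i)) :
    Blk (2 * k + 1) (mk k r c c' (sg r c c' i)) i (fun y => y < i) := by
  have he : 2 * (r i).1 - c.1 - c'.1 < 0 := by have := hp.lt; linarith
  have h0 : mu r c c' (sg r c c' i) i = 0 := mu_sg_self he.ne
  have hsU : ∀ y, y < i → 0 < det c c' (r y) → 0 < mu r c c' (sg r c c' i) y := fun y hy hd =>
    mu_sg_pos hp.lt (mul_pos_of_neg_of_neg (sub_neg.2 (hr y i hy hi)) (mul_neg_of_neg_of_pos he hd))
  have hsD : ∀ y, y < i → det c c' (r y) < 0 → mu r c c' (sg r c c' i) y < 0 := fun y hy hd =>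
    mu_sg_neg hp.lt (mul_neg_of_neg_of_pos (sub_neg.2 (hr y i hy hi)) (mul_pos_of_neg_of_neg he hd))
  have hlU : ∀ z, i < z → z < 2 * k + 1 → 0 < det c c' (r z) → mu r c c' (sg r c c' i) z < 0 :=
    fun z hz hzn hd =>
    mu_sg_neg hp.lt (mul_neg_of_pos_of_neg (sub_pos.2 (hr i z hz hzn)) (mul_neg_of_neg_of_pos he hd))
  have hlD : ∀ z, i < z → z < 2 * k + 1 → det c c' (r z) < 0 → 0 < mu r c c' (sg r c c' i) z :=
    fun z hz hzn hd =>
    mu_sg_pos hp.lt (mul_pos (sub_pos.2 (hr i z hz hzn)) (mul_pos_of_neg_of_neg he hd))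
  refine ⟨hi, lt_irrefl _, ?_, ?_⟩
  · intro y hy hyi
    rcases lt_or_gt_of_ne (hp.gp y hy) with hd | hd
    · exact lt_UD hi hu hd
    · exact lt_UU hi hu hd (h0 ▸ hsU y hyi hd)
  · intro y hy hyi z hz hzi hiz
    rcases lt_or_eq_of_le (not_lt.1 hzi) with hzi | rfl
    · rcases lt_or_gt_of_ne (hp.gp z hz) with hdz | hdz
      · rcases lt_or_gt_of_ne (hp.gp y hy) with hd | hd
        · exact lt_DD hy hd hdz ((hsD y hyi hd).trans (hlD z hzi hz hdz))
        · exact lt_UD hy hd hdz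
      · exact absurd (lt_UU hz hdz hu (h0.symm ▸ hlU z hzi hz hdz)) (lt_asymm hiz)
    · exact absurd hiz (lt_irrefl _)

/-- (E6) `i` left of `c`, below the line: `[U larger][U smaller][D smaller] i [D larger]`. -/
lemma blk_left_down (hr : Reds k r) (hp : BPair k r c c') {i : ℕ} (hi : i < 2 * k + 1)
    (hl : (r i).1 < c.1) (hu : det c c' (r i) < 0) :
    Blk (2 * k + 1) (fun y => - mk k r c c' (sg r c c' i) y) i (fun y => y < i) := by
  have he : 2 * (r i).1 - c.1 - c'.1 < 0 := by have := hp.lt; linarith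
  have h0 : mu r c c' (sg r c c' i) i = 0 := mu_sg_self he.ne
  have hsU : ∀ y, y < i → 0 < det c c' (r y) → 0 < mu r c c' (sg r c c' i) y := fun y hy hd =>
    mu_sg_pos hp.lt (mul_pos_of_neg_of_neg (sub_neg.2 (hr y i hy hi)) (mul_neg_of_neg_of_pos he hd))
  have hsD : ∀ y, y < i → det c c' (r y) < 0 → mu r c c' (sg r c c' i) y < 0 := fun y hy hd =>
    mu_sg_neg hp.lt (mul_neg_of_neg_of_pos (sub_neg.2 (hr y i hy hi)) (mul_pos_of_neg_of_neg he hd))
  have hlU : ∀ z, i < z → z < 2 * k + 1 → 0 < det c c' (r z) → mu r c c' (sg r c c' i) z < 0 :=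
    fun z hz hzn hd =>
    mu_sg_neg hp.lt (mul_neg_of_pos_of_neg (sub_pos.2 (hr i z hz hzn)) (mul_neg_of_neg_of_pos he hd))
  have hlD : ∀ z, i < z → z < 2 * k + 1 → det c c' (r z) < 0 → 0 < mu r c c' (sg r c c' i) z :=
    fun z hz hzn hd =>
    mu_sg_pos hp.lt (mul_pos (sub_pos.2 (hr i z hz hzn)) (mul_pos_of_neg_of_neg he hd))
  refine ⟨hi, lt_irrefl _, ?_, ?_⟩
  · intro y hy hyi
    rw [neg_lt_neg_iff]
    rcases lt_or_gt_of_ne (hp.gp y hy) with hd | hd
    · exact lt_DD hy hd hu (h0.symm ▸ hsD y hyi hd)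
    · exact lt_UD hy hd hu
  · intro y hy hyi z hz hzi hiz
    rw [neg_lt_neg_iff] at hiz ⊢
    rcases lt_or_eq_of_le (not_lt.1 hzi) with hzi | rfl
    · rcases lt_or_gt_of_ne (hp.gp z hz) with hdz | hdz
      · exact absurd (lt_DD hi hu hdz (h0 ▸ hlD z hzi hz hdz)) (lt_asymm hiz)
      · rcases lt_or_gt_of_ne (hp.gp y hy) with hd | hd
        · exact lt_UD hz hdz hd
        · exact lt_UU hz hdz hd ((hlU z hzi hz hdz).trans (hsU y hyi hd))
    · exact absurd hiz (lt_irrefl _)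

/-- (E7) `i` right of `c'`, above the line: `[U smaller] i [U larger][D larger][D smaller]`. -/
lemma blk_right_up (hr : Reds k r) (hp : BPair k r c c') {i : ℕ} (hi : i < 2 * k + 1)
    (hl : c'.1 < (r i).1) (hu : 0 < det c c' (r i)) :
    Blk (2 * k + 1) (mk k r c c' (sg r c c' i)) i (fun y => i < y) := by
  have he : 0 < 2 * (r i).1 - c.1 - c'.1 := by have := hp.lt; linarith
  have h0 : mu r c c' (sg r c c' i) i = 0 := mu_sg_self he.ne'
  have hsU : ∀ y, y < i → 0 < det c c' (r y) → mu r c c' (sg r c c' i) y < 0 := fun y hy hd =>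
    mu_sg_neg hp.lt (mul_neg_of_neg_of_pos (sub_neg.2 (hr y i hy hi)) (mul_pos he hd))
  have hsD : ∀ y, y < i → det c c' (r y) < 0 → 0 < mu r c c' (sg r c c' i) y := fun y hy hd =>
    mu_sg_pos hp.lt (mul_pos_of_neg_of_neg (sub_neg.2 (hr y i hy hi)) (mul_neg_of_pos_of_neg he hd))
  have hlU : ∀ z, i < z → z < 2 * k + 1 → 0 < det c c' (r z) → 0 < mu r c c' (sg r c c' i) z :=
    fun z hz hzn hd =>
    mu_sg_pos hp.lt (mul_pos (sub_pos.2 (hr i z hz hzn)) (mul_pos he hd))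
  have hlD : ∀ z, i < z → z < 2 * k + 1 → det c c' (r z) < 0 → mu r c c' (sg r c c' i) z < 0 :=
    fun z hz hzn hd =>
    mu_sg_neg hp.lt (mul_neg_of_pos_of_neg (sub_pos.2 (hr i z hz hzn)) (mul_neg_of_pos_of_neg he hd))
  refine ⟨hi, lt_irrefl _, ?_, ?_⟩
  · intro y hy hyi
    rcases lt_or_gt_of_ne (hp.gp y hy) with hd | hd
    · exact lt_UD hi hu hd
    · exact lt_UU hi hu hd (h0 ▸ hlU y hyi hy hd)
  · intro y hy hyi z hz hzi hiz
    rcases lt_or_eq_of_le (not_lt.1 hzi) with hzi | rfl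
    · rcases lt_or_gt_of_ne (hp.gp z hz) with hdz | hdz
      · rcases lt_or_gt_of_ne (hp.gp y hy) with hd | hd
        · exact lt_DD hy hd hdz ((hlD y hyi hy hd).trans (hsD z hzi hdz))
        · exact lt_UD hy hd hdz
      · exact absurd (lt_UU hz hdz hu (h0.symm ▸ hsU z hzi hdz)) (lt_asymm hiz)
    · exact absurd hiz (lt_irrefl _)

/-- (E8) `i` right of `c'`, below the line: `[U smaller][U larger][D larger] i [D smaller]`. -/
lemma blk_right_down (hr : Reds k r) (hp : BPair k r c c') {i : ℕ} (hi : i < 2 * k + 1)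
    (hl : c'.1 < (r i).1) (hu : det c c' (r i) < 0) :
    Blk (2 * k + 1) (fun y => - mk k r c c' (sg r c c' i) y) i (fun y => i < y) := by
  have he : 0 < 2 * (r i).1 - c.1 - c'.1 := by have := hp.lt; linarith
  have h0 : mu r c c' (sg r c c' i) i = 0 := mu_sg_self he.ne'
  have hsU : ∀ y, y < i → 0 < det c c' (r y) → mu r c c' (sg r c c' i) y < 0 := fun y hy hd =>
    mu_sg_neg hp.lt (mul_neg_of_neg_of_pos (sub_neg.2 (hr y i hy hi)) (mul_pos he hd))
  have hsD : ∀ y, y < i → det c c' (r y) < 0 → 0 < mu r c c' (sg r c c' i) y := fun y hy hd =>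
    mu_sg_pos hp.lt (mul_pos_of_neg_of_neg (sub_neg.2 (hr y i hy hi)) (mul_neg_of_pos_of_neg he hd))
  have hlU : ∀ z, i < z → z < 2 * k + 1 → 0 < det c c' (r z) → 0 < mu r c c' (sg r c c' i) z :=
    fun z hz hzn hd =>
    mu_sg_pos hp.lt (mul_pos (sub_pos.2 (hr i z hz hzn)) (mul_pos he hd))
  have hlD : ∀ z, i < z → z < 2 * k + 1 → det c c' (r z) < 0 → mu r c c' (sg r c c' i) z < 0 :=
    fun z hz hzn hd =>
    mu_sg_neg hp.lt (mul_neg_of_pos_of_neg (sub_pos.2 (hr i z hz hzn)) (mul_neg_of_pos_of_neg he hd))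
  refine ⟨hi, lt_irrefl _, ?_, ?_⟩
  · intro y hy hyi
    rw [neg_lt_neg_iff]
    rcases lt_or_gt_of_ne (hp.gp y hy) with hd | hd
    · exact lt_DD hy hd hu (h0.symm ▸ hlD y hyi hy hd)
    · exact lt_UD hy hd hu
  · intro y hy hyi z hz hzi hiz
    rw [neg_lt_neg_iff] at hiz ⊢
    rcases lt_or_eq_of_le (not_lt.1 hzi) with hzi | rfl
    · rcases lt_or_gt_of_ne (hp.gp z hz) with hdz | hdz
      · exact absurd (lt_DD hi hu hdz (h0 ▸ hsD z hzi hdz)) (lt_asymm hiz)
      · rcases lt_or_gt_of_ne (hp.gp y hy) with hd | hd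
        · exact lt_UD hz hdz hd
        · exact lt_UU hz hdz hd ((hsU z hzi hdz).trans (hlU y hyi hy hd))
    · exact absurd hiz (lt_irrefl _)

/-- (E9) from E5 - E8, `NN_extreme`, `inj_mk`, `BPair.gp`. -/
lemma NN_pass (hr : Reds k r) (hp : BPair k r c c') {i : ℕ} (hi : i < 2 * k + 1)
    (hl : (r i).1 < c.1 ∨ c'.1 < (r i).1) :
    NN k (mk k r c c' (sg r c c' i)) i = k - i ∨
      NN k (mk k r c c' (sg r c c' i)) i = min k (2 * k - i) := by
  rcases lt_or_gt_of_ne (hp.gp i hi) with hu | hu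
  · rcases hl with hl | hl
    · exact NN_extreme (inj_mk _) (Or.inr (Or.inr (Or.inl (blk_left_down hr hp hi hl hu))))
    · exact NN_extreme (inj_mk _) (Or.inr (Or.inr (Or.inr (blk_right_down hr hp hi hl hu))))
  · rcases hl with hl | hl
    · exact NN_extreme (inj_mk _) (Or.inl (blk_left_up hr hp hi hl hu))
    · exact NN_extreme (inj_mk _) (Or.inr (Or.inl (blk_right_up hr hp hi hl hu)))

end Vale.Agent.P040.Rect
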