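import Vale.Agent.P040.All.Kendall
import Vale.Agent.P040.All.Rot
import Vale.Agent.P040.All.Ext

/-!
# Rectilinear Zarankiewicz: integer keys from keys in a linear order (rows RK1 - RK4)
See `notes/P040_rectilinear.md`.
-/

namespace Vale.Agent.P040.Rect

open Finset Vale.Agent.P040.All

/-- the type of the geometric keys: (block, real key, label), ordered lexicographically -/
abbrev Key : Type := ℤ ×ₗ ℝ ×ₗ ℕ

/-- constructor of a key -/
def key (b : ℤ) (t : ℝ) (l : ℕ) : Key := toLex (b, toLex (t, l))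

/-- (RK1) the lexicographic order, spelled out (`Prod.Lex.toLex_lt_toLex` / `Prod.Lex.lt_iff`). -/
lemma key_lt_iff (b b' : ℤ) (t t' : ℝ) (l l' : ℕ) :
    key b t l < key b' t' l' ↔ b < b' ∨ (b = b' ∧ (t < t' ∨ (t = t' ∧ l < l'))) := by
  unfold key
  rw [Prod.Lex.toLex_lt_toLex, Prod.Lex.toLex_lt_toLex]

/-- (RK2) -/
lemma key_inj {b b' : ℤ} {t t' : ℝ} {l l' : ℕ} (h : key b t l = key b' t' l') : l = l' := by
  unfold key at h
  have e1 := congrArg (fun z => (ofLex (ofLex z).2).2) h
  simpa using e1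

/-- integer key (rank) from a key with values in a linear order -/
noncomputable def rk {α : Type} [LinearOrder α] (n : ℕ) (K : ℕ → α) (x : ℕ) : ℤ :=
  (((range n).filter fun y => K y < K x).card : ℤ)

variable {α : Type} [LinearOrder α] {n : ℕ} {K : ℕ → α}

private lemma rk_le_of_le {x y : ℕ} (h : K x ≤ K y) : rk n K x ≤ rk n K y := by
  unfold rk
  have : ((range n).filter fun z => K z < K x) ⊆ ((range n).filter fun z => K z < K y) := by
    intro z hz
    rw [mem_filter] at hz ⊢
    exact ⟨hz.1, lt_of_lt_of_le hz.2 h⟩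
  exact_mod_cast card_le_card this

private lemma rk_lt_of_lt {x y : ℕ} (hx : x < n) (h : K x < K y) : rk n K x < rk n K y := by
  unfold rk
  have : ((range n).filter fun z => K z < K x) ⊂ ((range n).filter fun z => K z < K y) := by
    rw [Finset.ssubset_iff_of_subset]
    · exact ⟨x, by rw [mem_filter]; exact ⟨mem_range.2 hx, h⟩, by
        rw [mem_filter]; exact fun hh => lt_irrefl _ hh.2⟩
    · intro z hz
      rw [mem_filter] at hz ⊢
      exact ⟨hz.1, lt_trans hz.2 h⟩
  exact_mod_cast card_lt_card this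

/-- (RK3) copy of `All.pos_lt_iff` (`pos_le_pos`, `pos_lt_pos`) for a general linear order. -/
lemma rk_lt_iff {x y : ℕ} (hx : x < n) : rk n K x < rk n K y ↔ K x < K y := by
  constructor
  · intro h
    by_contra hc
    exact absurd (rk_le_of_le (n := n) (not_lt.1 hc)) (not_le.2 h)
  · exact rk_lt_of_lt hx

/-- (RK4) from RK3 (trichotomy). -/
lemma rk_inj (hK : ∀ x < n, ∀ y < n, K x = K y → x = y) : Inj n (rk n K) := by
  intro x hx y hy h
  apply hK x hx y hy
  rcases lt_trichotomy (K x) (K y) with h1 | h1 | h1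
  · exact absurd h (ne_of_lt ((rk_lt_iff hx).2 h1))
  · exact h1
  · exact absurd h.symm (ne_of_lt ((rk_lt_iff hy).2 h1))

end Vale.Agent.P040.Rect
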