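import Vale.Agent.P040.Rect.Defs
import Vale.Agent.P040.Rect.Geom
import Vale.Agent.P040.All.Therm

/-!
# Rectilinear drawings: reduction of the Zarankiewicz bound to the pair inequality

The pair inequality is a statement on `2k+1` red points sorted by abscissa and two blue points, in
terms of determinants only.  Here: shear to distinct abscissae, relabelling of the red points,
passage from determinants to segments, counting.
-/

namespace Vale.Agent.P040.Rect

open Finset Vale.Agent.P040.All

/-- `x, x'` lie on the same side of the line `b b'` and `b, b'` on the same side of the line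
`x x'` -/
def Good (b b' x x' : ℝ × ℝ) : Prop :=
  0 < det b b' x * det b b' x' ∧ 0 < det x x' b * det x x' b'

lemma good_swap (b b' x x' : ℝ × ℝ) : Good b' b x x' ↔ Good b b' x x' := by
  unfold Good
  have h1 : det b' b x * det b' b x' = det b b' x * det b b' x' := by unfold det; ring
  rw [h1, mul_comm (det x x' b') (det x x' b)]

lemma good_shear (ε : ℝ) (b b' x x' : ℝ × ℝ) :
    Good (shear ε b) (shear ε b') (shear ε x) (shear ε x') ↔ Good b b' x x' := by
  unfold Good
  simp only [det_shear]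

open Classical in
/-- number of good pairs of reds -/
noncomputable def goodCount (k : ℕ) (R : ℕ → ℝ × ℝ) (b b' : ℝ × ℝ) : ℕ :=
  (((range (2 * k + 1)) ×ˢ (range (2 * k + 1))).filter fun q =>
    q.1 < q.2 ∧ Good b b' (R q.1) (R q.2)).card

/-- The pair inequality for the features `PhiR`. -/
def PairIneq (k : ℕ) (PhiR : (ℕ → ℝ × ℝ) → ℕ × ℕ → ℝ × ℝ → Bool) : Prop :=
  ∀ R : ℕ → ℝ × ℝ, (∀ x y, x < y → y < 2 * k + 1 → (R x).1 < (R y).1) →
    ∀ b b' : ℝ × ℝ, b.1 < b'.1 →
    (∀ x < 2 * k + 1, (R x).1 ≠ b.1) → (∀ x < 2 * k + 1, (R x).1 ≠ b'.1) →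
    (∀ x < 2 * k + 1, det b b' (R x) ≠ 0) →
    (∀ x < 2 * k + 1, ∀ y < 2 * k + 1, x ≠ y → det (R x) (R y) b ≠ 0) →
    (∀ x < 2 * k + 1, ∀ y < 2 * k + 1, x ≠ y → det (R x) (R y) b' ≠ 0) →
    ((II k).filter fun f => PhiR R f b = PhiR R f b').card ≤ goodCount k R b b'

variable {n : ℕ}

lemma det_red_ne {m : ℕ} (D : RectDrawing m n) (i i' : Fin m) (j : Fin n) (h : i ≠ i') :
    det (D.red i) (D.red i') (D.blue j) ≠ 0 :=
  fun h0 => D.gen_red i i' j h (collinear_of_det_eq_zero _ _ _ h0)

lemma det_blue_ne {m : ℕ} (D : RectDrawing m n) (i : Fin m) (j j' : Fin n) (h : j ≠ j') :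
    det (D.red i) (D.blue j) (D.blue j') ≠ 0 :=
  fun h0 => D.gen_blue i j j' h (collinear_of_det_eq_zero _ _ _ h0)

/-- all the points of a drawing are distinct (if there are enough of them) -/
lemma points_injective {m : ℕ} (D : RectDrawing m n) (hm : 0 < m) (hn : 2 ≤ n) :
    Function.Injective (Sum.elim D.red D.blue) := by
  have haa : ∀ a c : ℝ × ℝ, det a a c = 0 := fun a c => by unfold det; ring
  have hbb : ∀ a c : ℝ × ℝ, det a c c = 0 := fun a c => by unfold det; ring
  have hrb : ∀ (i : Fin m) (j : Fin n), D.red i ≠ D.blue j := by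
    intro i j h
    obtain ⟨j', hj'⟩ : ∃ j' : Fin n, j ≠ j' := by
      by_cases h0 : j.val = 0
      · exact ⟨⟨1, by omega⟩, fun h1 => by rw [h1] at h0; simp at h0⟩
      · exact ⟨⟨0, by omega⟩, fun h1 => by rw [h1] at h0; simp at h0⟩
    apply det_blue_ne D i j j' hj'
    rw [h]
    exact haa _ _
  rintro (i | j) (i' | j') h
  · simp only [Sum.elim_inl] at h
    by_contra hne
    have hne' : i ≠ i' := fun h' => hne (by rw [h'])
    apply det_red_ne D i i' ⟨0, by omega⟩ hne'
    rw [h]
    exact haa _ _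
  · exact absurd h (hrb i j')
  · exact absurd h.symm (hrb i' j)
  · simp only [Sum.elim_inr] at h
    by_contra hne
    have hne' : j ≠ j' := fun h' => hne (by rw [h'])
    apply det_blue_ne D ⟨0, hm⟩ j j' hne'
    rw [h]
    exact hbb _ _

/-- good pairs give crossings -/
lemma goodCount_le_pc (k : ℕ) (D : RectDrawing (2 * k + 1) n) (ε : ℝ)
    (σ : Equiv.Perm (Fin (2 * k + 1))) (j j' : Fin n) :
    goodCount k (fun x => shear ε (D.red (σ (Fin.ofNat (2 * k + 1) x))))
      (shear ε (D.blue j)) (shear ε (D.blue j')) ≤ D.pc j j' := by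
  classical
  unfold goodCount RectDrawing.pc
  set s : ℕ → Fin (2 * k + 1) := fun x => σ (Fin.ofNat (2 * k + 1) x) with hs
  have hsinj : ∀ x < 2 * k + 1, ∀ y < 2 * k + 1, s x = s y → x = y := by
    intro x hx y hy h
    have h1 : Fin.ofNat (2 * k + 1) x = Fin.ofNat (2 * k + 1) y := σ.injective h
    have h2 := congrArg Fin.val h1
    simp only [Fin.val_ofNat] at h2
    rwa [Nat.mod_eq_of_lt hx, Nat.mod_eq_of_lt hy] at h2
  apply card_le_card_of_injOn
    (fun q => if D.Cross (s q.1, j) (s q.2, j') then (s q.1, s q.2) else (s q.2, s q.1))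
  · intro q hq
    simp only [coe_filter, mem_product, mem_range, Set.mem_ofPred_eq] at hq
    obtain ⟨⟨hq1, hq2⟩, hlt, hgood⟩ := hq
    rw [good_shear] at hgood
    have hne : s q.1 ≠ s q.2 := fun h => (ne_of_lt hlt) (hsinj _ hq1 _ hq2 h)
    have hcr := cross_of_same_sides _ _ _ _ hgood.1 hgood.2
    simp only [coe_filter, mem_univ, true_and, Set.mem_ofPred_eq]
    by_cases hc : D.Cross (s q.1, j) (s q.2, j')
    · rw [if_pos hc]
      exact ⟨hne, hc⟩
    · rw [if_neg hc]
      refine ⟨hne.symm, ?_⟩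
      rcases hcr with h | h
      · exfalso
        apply hc
        unfold RectDrawing.Cross
        rw [segment_symm ℝ (D.red _) (D.blue j), segment_symm ℝ (D.red _) (D.blue j')]
        exact h
      · unfold RectDrawing.Cross
        rw [segment_symm ℝ (D.red _) (D.blue j), segment_symm ℝ (D.red _) (D.blue j')]
        exact h
  · intro q hq q' hq' h
    simp only [coe_filter, mem_product, mem_range, Set.mem_ofPred_eq] at hq hq'
    obtain ⟨⟨hq1, hq2⟩, hlt, -⟩ := hq
    obtain ⟨⟨hq1', hq2'⟩, hlt', -⟩ := hq'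
    simp only at h
    split_ifs at h with h1 h2 h2
    · simp only [Prod.mk.injEq] at h
      exact Prod.ext (hsinj _ hq1 _ hq1' h.1) (hsinj _ hq2 _ hq2' h.2)
    · simp only [Prod.mk.injEq] at h
      have e1 := hsinj _ hq1 _ hq2' h.1
      have e2 := hsinj _ hq2 _ hq1' h.2
      omega
    · simp only [Prod.mk.injEq] at h
      have e1 := hsinj _ hq2 _ hq1' h.1
      have e2 := hsinj _ hq1 _ hq2' h.2
      omega
    · simp only [Prod.mk.injEq] at h
      exact Prod.ext (hsinj _ hq1 _ hq1' h.2) (hsinj _ hq2 _ hq2' h.1)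

/-- The pair inequality implies the Zarankiewicz bound for rectilinear drawings of
`K_{2k+1,n}`. -/
theorem odd_of_pair (k : ℕ) (PhiR : (ℕ → ℝ × ℝ) → ℕ × ℕ → ℝ × ℝ → Bool) (hP : PairIneq k PhiR)
    (n : ℕ) (D : RectDrawing (2 * k + 1) n) :
    k * k * ((n / 2) * ((n - 1) / 2)) ≤ D.crossings := by
  classical
  by_cases hn : n < 2
  · have : (n / 2) * ((n - 1) / 2) = 0 := by
      interval_cases n <;> simp
    rw [this]; simp
  have hn2 : 2 ≤ n := by omega
  have hinj := points_injective D (by omega) hn2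
  obtain ⟨ε, hε⟩ := exists_shear _ hinj
  set φ : Fin (2 * k + 1) → ℝ := fun i => (shear ε (D.red i)).1 with hφ
  have hφinj : Function.Injective φ := by
    intro i i' h
    have := hε (a₁ := Sum.inl i) (a₂ := Sum.inl i') h
    exact Sum.inl_injective this
  set σ : Equiv.Perm (Fin (2 * k + 1)) := Tuple.sort φ with hσ
  have hmono : StrictMono (φ ∘ σ) :=
    (Tuple.monotone_sort φ).strictMono_of_injective (hφinj.comp σ.injective)
  set R : ℕ → ℝ × ℝ := fun x => shear ε (D.red (σ (Fin.ofNat (2 * k + 1) x))) with hR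
  set B : Fin n → ℝ × ℝ := fun j => shear ε (D.blue j) with hB
  have hRmono : ∀ x y, x < y → y < 2 * k + 1 → (R x).1 < (R y).1 := by
    intro x y hxy hy
    apply hmono
    rw [Fin.lt_def]
    simp only [Fin.val_ofNat]
    rw [Nat.mod_eq_of_lt hy, Nat.mod_eq_of_lt (by omega)]
    exact hxy
  have hRB : ∀ x j, (R x).1 ≠ (B j).1 := by
    intro x j h
    have := hε (a₁ := Sum.inl (σ (Fin.ofNat (2 * k + 1) x))) (a₂ := Sum.inr j) h
    exact Sum.inl_ne_inr this
  have hBB : ∀ j j', j ≠ j' → (B j).1 ≠ (B j').1 := by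
    intro j j' hne h
    have := hε (a₁ := Sum.inr j) (a₂ := Sum.inr j') h
    exact hne (Sum.inr_injective this)
  have hsne : ∀ x < 2 * k + 1, ∀ y < 2 * k + 1, x ≠ y →
      σ (Fin.ofNat (2 * k + 1) x) ≠ σ (Fin.ofNat (2 * k + 1) y) := by
    intro x hx y hy hne h
    have h1 : Fin.ofNat (2 * k + 1) x = Fin.ofNat (2 * k + 1) y := σ.injective h
    have h2 := congrArg Fin.val h1
    simp only [Fin.val_ofNat] at h2
    rw [Nat.mod_eq_of_lt hx, Nat.mod_eq_of_lt hy] at h2
    exact hne h2
  have hd1 : ∀ j j', j ≠ j' → ∀ x < 2 * k + 1, det (B j) (B j') (R x) ≠ 0 := by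
    intro j j' hne x _
    simp only [hB, hR, det_shear]
    have := det_blue_ne D (σ (Fin.ofNat (2 * k + 1) x)) j j' hne
    intro h0
    apply this
    rw [← h0]
    unfold det; ring
  have hd2 : ∀ j, ∀ x < 2 * k + 1, ∀ y < 2 * k + 1, x ≠ y → det (R x) (R y) (B j) ≠ 0 := by
    intro j x hx y hy hne
    simp only [hB, hR, det_shear]
    exact det_red_ne D _ _ j (hsne x hx y hy hne)
  have hpair : ∀ j j' : Fin n, j < j' →
      ((II k).filter fun f => PhiR R f (B j) = PhiR R f (B j')).card ≤ D.pc j j' := by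
    intro j j' hlt
    have hne : j ≠ j' := ne_of_lt hlt
    rcases lt_or_gt_of_ne (hBB j j' hne) with h | h
    · refine (hP R hRmono (B j) (B j') h (fun x _ => hRB x j) (fun x _ => hRB x j')
        (hd1 j j' hne) (hd2 j) (hd2 j')).trans ?_
      exact goodCount_le_pc k D ε σ j j'
    · have h1 := hP R hRmono (B j') (B j) h (fun x _ => hRB x j') (fun x _ => hRB x j)
        (hd1 j' j hne.symm) (hd2 j') (hd2 j)
      have h2 : goodCount k R (B j') (B j) = goodCount k R (B j) (B j') := by
        unfold goodCount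
        congr 1
        apply filter_congr
        intro q _
        rw [good_swap]
      rw [h2] at h1
      have h3 : ((II k).filter fun f => PhiR R f (B j) = PhiR R f (B j')) =
          ((II k).filter fun f => PhiR R f (B j') = PhiR R f (B j)) := by
        apply filter_congr
        intro f _
        exact eq_comm
      rw [h3]
      exact h1.trans (goodCount_le_pc k D ε σ j j')
  have := feat_count (II k) (fun f j => PhiR R f (B j)) D.pc hpair
  rw [card_II] at this
  exact this.trans (sum_pc_le D)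

end Vale.Agent.P040.Rect
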