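import Vale.Agent.P040.Rect.Defs

/-!
# Zarankiewicz's drawing is rectilinear and attains the bound
-/

namespace Vale.Agent.P040.Rect

open Finset

/-- two segments joining the two axes that meet -/
lemma axes_meet_imp {a a' c c' : ℝ} (ha' : a' ≠ 0) (hc' : c' ≠ 0) (ha : a ≠ 0) (hc : c ≠ 0)
    (haa : a ≠ a') (hcc : c ≠ c')
    (h : (segment ℝ ((a, 0) : ℝ × ℝ) (0, c) ∩ segment ℝ ((a', 0) : ℝ × ℝ) (0, c')).Nonempty) :
    0 < a * a' ∧ 0 < c * c' ∧ a * c * ((a - a') * (c - c')) < 0 := by
  obtain ⟨z, ⟨α, β, hα, hβ, hαβ, rfl⟩, ⟨α', β', hα', hβ', hαβ', hz⟩⟩ := h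
  have h1 : α' * a' = α * a := by
    have := congrArg Prod.fst hz
    simpa using this
  have h2 : β' * c' = β * c := by
    have := congrArg Prod.snd hz
    simpa using this
  have hα0 : α ≠ 0 := by
    intro h0
    rw [h0, zero_mul] at h1
    have h3 : α' = 0 := by
      rcases mul_eq_zero.mp h1 with h | h
      · exact h
      · exact absurd h ha'
    have h4 : β = 1 := by linarith
    have h5 : β' = 1 := by linarith
    rw [h4, h5, one_mul, one_mul] at h2
    exact hcc h2.symm
  have hα0' : α' ≠ 0 := by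
    intro h0
    rw [h0, zero_mul] at h1
    rcases mul_eq_zero.mp h1.symm with h | h
    · exact hα0 h
    · exact ha h
  have hβ0 : β ≠ 0 := by
    intro h0
    rw [h0, zero_mul] at h2
    have h3 : β' = 0 := by
      rcases mul_eq_zero.mp h2 with h | h
      · exact h
      · exact absurd h hc'
    have h4 : α = 1 := by linarith
    have h5 : α' = 1 := by linarith
    rw [h4, h5, one_mul, one_mul] at h1
    exact haa h1.symm
  have hβ0' : β' ≠ 0 := by
    intro h0
    rw [h0, zero_mul] at h2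
    rcases mul_eq_zero.mp h2.symm with h | h
    · exact hβ0 h
    · exact hc h
  have pα : 0 < α := lt_of_le_of_ne hα (Ne.symm hα0)
  have pα' : 0 < α' := lt_of_le_of_ne hα' (Ne.symm hα0')
  have pβ : 0 < β := lt_of_le_of_ne hβ (Ne.symm hβ0)
  have pβ' : 0 < β' := lt_of_le_of_ne hβ' (Ne.symm hβ0')
  have e1 : α * (a * a') = α' * (a' * a') := by
    calc α * (a * a') = (α * a) * a' := by ring
      _ = (α' * a') * a' := by rw [h1]
      _ = α' * (a' * a') := by ring
  have e2 : β * (c * c') = β' * (c' * c') := by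
    calc β * (c * c') = (β * c) * c' := by ring
      _ = (β' * c') * c' := by rw [h2]
      _ = β' * (c' * c') := by ring
  have q1 : 0 < a * a' := by
    have : 0 < α * (a * a') := by
      rw [e1]; exact mul_pos pα' (mul_self_pos.mpr ha')
    exact (pos_iff_pos_of_mul_pos this).mp pα
  have q2 : 0 < c * c' := by
    have : 0 < β * (c * c') := by
      rw [e2]; exact mul_pos pβ' (mul_self_pos.mpr hc')
    exact (pos_iff_pos_of_mul_pos this).mp pβ
  refine ⟨q1, q2, ?_⟩
  have hne : α' - α ≠ 0 := by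
    intro h0
    have h3 : α' = α := by linarith
    rw [h3] at h1
    exact haa (mul_left_cancel₀ hα0 h1).symm
  have e3 : α * (a - a') = (α' - α) * a' := by linarith
  have e4 : β * (c - c') = -(α' - α) * c' := by
    have : β' - β = -(α' - α) := by linarith
    calc β * (c - c') = β * c - β * c' := by ring
      _ = β' * c' - β * c' := by rw [h2]
      _ = (β' - β) * c' := by ring
      _ = -(α' - α) * c' := by rw [this]
  have e5 : (α * β) * (a * c * ((a - a') * (c - c'))) = -((α' - α) * (α' - α) * ((a * a') * (c * c'))) := by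
    calc (α * β) * (a * c * ((a - a') * (c - c')))
        = a * c * ((α * (a - a')) * (β * (c - c'))) := by ring
      _ = a * c * (((α' - α) * a') * (-(α' - α) * c')) := by rw [e3, e4]
      _ = _ := by ring
  have e6 : (α * β) * (a * c * ((a - a') * (c - c'))) < 0 := by
    rw [e5]
    have : 0 < (α' - α) * (α' - α) * ((a * a') * (c * c')) :=
      mul_pos (mul_self_pos.mpr hne) (mul_pos q1 q2)
    linarith
  by_contra hcon
  have hcon' : 0 ≤ a * c * ((a - a') * (c - c')) := not_lt.mp hcon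
  have : 0 ≤ (α * β) * (a * c * ((a - a') * (c - c'))) := mul_nonneg (mul_pos pα pβ).le hcon'
  linarith

/-- two nested segments in the same quadrant meet -/
lemma axes_meet_of {ε δ p p' q q' : ℝ} (hp' : 0 < p') (hq : 0 < q) (hpp : p' < p) (hqq : q < q') :
    (segment ℝ ((ε * p, 0) : ℝ × ℝ) (0, δ * q) ∩
      segment ℝ ((ε * p', 0) : ℝ × ℝ) (0, δ * q')).Nonempty := by
  have hp : 0 < p := lt_trans hp' hpp
  have hq' : 0 < q' := lt_trans hq hqq
  have hD : 0 < p * q' - p' * q := by nlinarith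
  refine ⟨(ε * (p * p' * (q' - q) / (p * q' - p' * q)), δ * (q * q' * (p - p') / (p * q' - p' * q))),
    ⟨p' * (q' - q) / (p * q' - p' * q), q' * (p - p') / (p * q' - p' * q), ?_, ?_, ?_, ?_⟩,
    ⟨p * (q' - q) / (p * q' - p' * q), q * (p - p') / (p * q' - p' * q), ?_, ?_, ?_, ?_⟩⟩
  · exact div_nonneg (mul_nonneg hp'.le (by linarith)) hD.le
  · exact div_nonneg (mul_nonneg hq'.le (by linarith)) hD.le
  · rw [← add_div, div_eq_one_iff_eq hD.ne']; ring
  · ext
    · simp; field_simp
    · simp; field_simp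
  · exact div_nonneg (mul_nonneg hp.le (by linarith)) hD.le
  · exact div_nonneg (mul_nonneg hq.le (by linarith)) hD.le
  · rw [← add_div, div_eq_one_iff_eq hD.ne']; ring
  · ext
    · simp; field_simp
    · simp; field_simp

/-- sign by parity -/
noncomputable def sg (i : ℕ) : ℝ := if i % 2 = 0 then 1 else -1

/-- distance from the origin -/
noncomputable def rk (i : ℕ) : ℝ := ((i / 2 : ℕ) : ℝ) + 1

/-- coordinate of the `i`-th vertex on its axis -/
noncomputable def co (i : ℕ) : ℝ := sg i * rk i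

lemma rk_pos (i : ℕ) : 0 < rk i := by unfold rk; positivity

lemma rk_lt_iff {a b : ℕ} : rk a < rk b ↔ a / 2 < b / 2 := by
  unfold rk
  constructor
  · intro h
    have h' : ((a / 2 : ℕ) : ℝ) < ((b / 2 : ℕ) : ℝ) := by linarith
    exact_mod_cast h'
  · intro h
    have h' : ((a / 2 : ℕ) : ℝ) < ((b / 2 : ℕ) : ℝ) := by exact_mod_cast h
    linarith

lemma sg_sq (i : ℕ) : sg i * sg i = 1 := by
  unfold sg; split_ifs <;> norm_num

lemma sg_eq {i i' : ℕ} (h : i % 2 = i' % 2) : sg i = sg i' := by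
  unfold sg; rw [h]

lemma sg_mul_of_ne {i i' : ℕ} (h : i % 2 ≠ i' % 2) : sg i * sg i' = -1 := by
  unfold sg
  split_ifs with h1 h2 h2
  · exact absurd (h1.trans h2.symm) h
  · norm_num
  · norm_num
  · exfalso; omega

lemma co_ne_zero (i : ℕ) : co i ≠ 0 := by
  unfold co
  have h1 := sg_sq i
  have h2 := rk_pos i
  intro h
  rcases mul_eq_zero.mp h with h3 | h3
  · rw [h3] at h1; norm_num at h1
  · linarith

lemma co_mul_pos_iff {i i' : ℕ} : 0 < co i * co i' ↔ i % 2 = i' % 2 := by
  have e : co i * co i' = (sg i * sg i') * (rk i * rk i') := by unfold co; ring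
  have hp : 0 < rk i * rk i' := mul_pos (rk_pos i) (rk_pos i')
  constructor
  · intro h
    by_contra hne
    rw [e, sg_mul_of_ne hne] at h
    linarith
  · intro h
    rw [e, sg_eq h, sg_sq, one_mul]
    exact hp

lemma co_inj {i i' : ℕ} (h : co i = co i') : i = i' := by
  have h1 : 0 < co i * co i' := by
    rw [← h]; exact mul_self_pos.mpr (co_ne_zero i)
  have h2 := co_mul_pos_iff.mp h1
  have h3 : rk i = rk i' := by
    have h4 : sg i * co i = sg i * co i' := by rw [h]
    unfold co at h4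
    rw [← sg_eq h2, ← mul_assoc, ← mul_assoc, sg_sq, one_mul, one_mul] at h4
    exact h4
  have h5 : ¬ i / 2 < i' / 2 := fun h6 => by
    have := rk_lt_iff.mpr h6; linarith
  have h6 : ¬ i' / 2 < i / 2 := fun h6 => by
    have := rk_lt_iff.mpr h6; linarith
  omega

lemma not_collinear_axes {a a' c : ℝ} (haa : a ≠ a') (hc : c ≠ 0) :
    ¬ Collinear ℝ {((a, 0) : ℝ × ℝ), (a', 0), (0, c)} := by
  intro h
  rw [collinear_iff_of_mem (p₀ := ((a, 0) : ℝ × ℝ)) (by simp)] at h
  obtain ⟨v, hv⟩ := h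
  obtain ⟨r1, h1⟩ := hv (a', 0) (by simp)
  obtain ⟨r2, h2⟩ := hv (0, c) (by simp)
  have h1a := congrArg Prod.fst h1
  have h1b := congrArg Prod.snd h1
  have h2b := congrArg Prod.snd h2
  simp at h1a h1b h2b
  rcases h1b with h3 | h3
  · rw [h3] at h1a; simp at h1a; exact haa h1a.symm
  · rw [h3] at h2b; simp at h2b; exact hc h2b

lemma not_collinear_axes' {a c c' : ℝ} (hcc : c ≠ c') (ha : a ≠ 0) :
    ¬ Collinear ℝ {((a, 0) : ℝ × ℝ), (0, c), (0, c')} := by
  intro h
  rw [collinear_iff_of_mem (p₀ := ((0, c) : ℝ × ℝ)) (by simp)] at h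
  obtain ⟨v, hv⟩ := h
  obtain ⟨r1, h1⟩ := hv (0, c') (by simp)
  obtain ⟨r2, h2⟩ := hv (a, 0) (by simp)
  have h1a := congrArg Prod.fst h1
  have h1b := congrArg Prod.snd h1
  have h2a := congrArg Prod.fst h2
  simp at h1a h1b h2a
  rcases h1a with h3 | h3
  · rw [h3] at h1b; simp at h1b; exact hcc h1b.symm
  · rw [h3] at h2a; simp at h2a; exact ha h2a

/-- Zarankiewicz's drawing: the red vertices on the first axis, the blue vertices on the second
axis, each class split evenly by the origin. -/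
noncomputable def zarD (m n : ℕ) : RectDrawing m n where
  red := fun i => (co i, 0)
  blue := fun j => (0, co j)
  gen_red := fun i i' j h =>
    not_collinear_axes (fun e => h (Fin.ext (co_inj e))) (co_ne_zero j)
  gen_blue := fun i j j' h =>
    not_collinear_axes' (fun e => h (Fin.ext (co_inj e))) (co_ne_zero i)

lemma zarD_cross_iff {m n : ℕ} (i i' : Fin m) (j j' : Fin n) (hi : i ≠ i') (hj : j < j') :
    (zarD m n).Cross (i, j) (i', j') ↔
      (j : ℕ) % 2 = (j' : ℕ) % 2 ∧ (i' : ℕ) < i ∧ (i' : ℕ) % 2 = (i : ℕ) % 2 := by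
  have hj' : (j : ℕ) < j' := hj
  unfold RectDrawing.Cross zarD
  simp only
  constructor
  · intro h
    have hii : co i ≠ co i' := fun e => hi (Fin.ext (co_inj e))
    have hjj : co j ≠ co j' := fun e => (ne_of_lt hj) (Fin.ext (co_inj e))
    obtain ⟨h1, h2, h3⟩ := axes_meet_imp (co_ne_zero i') (co_ne_zero j') (co_ne_zero i) (co_ne_zero j)
      hii hjj h
    have p1 := co_mul_pos_iff.mp h1
    have p2 := co_mul_pos_iff.mp h2
    refine ⟨p2, ?_, p1.symm⟩
    have e : co i * co j * ((co i - co i') * (co j - co j')) =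
        (sg i * sg i) * (sg j * sg j) * (rk i * rk j * ((rk i - rk i') * (rk j - rk j'))) := by
      unfold co
      rw [← sg_eq p1, ← sg_eq p2]; ring
    rw [e, sg_sq, sg_sq, one_mul, one_mul] at h3
    have hq : rk j < rk j' := rk_lt_iff.mpr (by omega)
    have hpos : 0 < rk i * rk j := mul_pos (rk_pos i) (rk_pos j)
    have h4 : (rk i - rk i') * (rk j - rk j') < 0 := by
      by_contra hcon
      have := mul_nonneg hpos.le (not_lt.mp hcon)
      linarith
    have h5 : rk i' < rk i := by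
      by_contra hcon
      have h6 : rk i - rk i' ≤ 0 := by linarith [not_lt.mp hcon]
      have h7 : rk j - rk j' ≤ 0 := by linarith
      have := mul_nonneg_of_nonpos_of_nonpos h6 h7
      linarith
    have := rk_lt_iff.mp h5
    omega
  · rintro ⟨p2, hlt, p1⟩
    have e1 : co i' = sg i * rk i' := by unfold co; rw [sg_eq p1]
    have e2 : co j' = sg j * rk j' := by unfold co; rw [sg_eq p2]
    rw [e1, e2]
    exact axes_meet_of (rk_pos _) (rk_pos _) (rk_lt_iff.mpr (by omega)) (rk_lt_iff.mpr (by omega))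

/-- number of `x < n` of a given parity -/
lemma sum_parity (r : ℕ) (hr : r < 2) (n : ℕ) :
    ∑ x ∈ range n, (if x % 2 = r then 1 else 0) = (n + 1 - r) / 2 := by
  induction n with
  | zero => simp; omega
  | succ n ih =>
    rw [sum_range_succ, ih]
    split_ifs <;> omega

/-- number of pairs `x < y < n` of equal parity -/
lemma sum_pairs_parity (n : ℕ) :
    ∑ y ∈ range n, ∑ x ∈ range n, (if x < y ∧ x % 2 = y % 2 then 1 else 0) =
      (n / 2) * ((n - 1) / 2) := by
  have h1 : ∀ y ∈ range n, ∑ x ∈ range n, (if x < y ∧ x % 2 = y % 2 then 1 else 0) = y / 2 := by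
    intro y hy
    have hy' := mem_range.mp hy
    have h2 : ∑ x ∈ range n, (if x < y ∧ x % 2 = y % 2 then 1 else 0) =
        ∑ x ∈ range y, (if x % 2 = y % 2 then 1 else 0) := by
      have hsub : range y ⊆ range n := range_subset_range.mpr hy'.le
      rw [← sum_subset hsub]
      · apply sum_congr rfl
        intro x hx
        have := mem_range.mp hx
        simp [this]
      · intro x _ hx
        have : ¬ x < y := fun h => hx (mem_range.mpr h)
        simp [this]
    rw [h2, sum_parity _ (Nat.mod_lt _ (by norm_num))]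
    omega
  rw [sum_congr rfl h1]
  clear h1
  induction n with
  | zero => simp
  | succ n ih =>
    rw [sum_range_succ, ih]
    rcases Nat.even_or_odd' n with ⟨t, ht | ht⟩
    · subst ht
      have e1 : 2 * t / 2 = t := by omega
      have e2 : (2 * t - 1) / 2 = t - 1 := by omega
      have e3 : (2 * t + 1) / 2 = t := by omega
      have e4 : (2 * t + 1 - 1) / 2 = t := by omega
      rw [e1, e2, e3, e4]
      rcases t with _ | t
      · simp
      · simp only [Nat.add_sub_cancel]; ring
    · subst ht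
      have e1 : (2 * t + 1) / 2 = t := by omega
      have e2 : (2 * t + 1 - 1) / 2 = t := by omega
      have e3 : (2 * t + 1 + 1) / 2 = t + 1 := by omega
      have e4 : (2 * t + 1 + 1 - 1) / 2 = t := by omega
      rw [e1, e2, e3, e4]; ring

/-- pairs of equal parity in `Fin n` -/
def parPairs (n : ℕ) : Finset (Fin n × Fin n) :=
  univ.filter fun q => (q.1 : ℕ) < q.2 ∧ (q.1 : ℕ) % 2 = (q.2 : ℕ) % 2

lemma card_parPairs (n : ℕ) : (parPairs n).card = (n / 2) * ((n - 1) / 2) := by
  unfold parPairs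
  rw [card_filter, Fintype.sum_prod_type, sum_comm, ← sum_pairs_parity n,
    ← Fin.sum_univ_eq_sum_range (fun y => ∑ x ∈ range n, (if x < y ∧ x % 2 = y % 2 then 1 else 0)) n]
  apply sum_congr rfl
  intro y _
  rw [← Fin.sum_univ_eq_sum_range (fun x => (if x < (y : ℕ) ∧ x % 2 = (y : ℕ) % 2 then 1 else 0)) n]

/-- Zarankiewicz's drawing has exactly `⌊m/2⌋ ⌊(m-1)/2⌋ ⌊n/2⌋ ⌊(n-1)/2⌋` crossings. -/
theorem zarD_crossings (m n : ℕ) :
    (zarD m n).crossings = (m / 2) * ((m - 1) / 2) * ((n / 2) * ((n - 1) / 2)) := by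
  classical
  rw [crossings_eq_card, ← card_parPairs m, ← card_parPairs n, ← card_product]
  apply card_nbij' (fun p => ((p.2.1, p.1.1), (p.1.2, p.2.2)))
    (fun q => ((q.1.2, q.2.1), (q.1.1, q.2.2)))
  · rintro ⟨⟨i, j⟩, ⟨i', j'⟩⟩ hp
    simp only [RectDrawing.crossSet, coe_filter, mem_univ, true_and, Set.mem_setOf_eq] at hp
    obtain ⟨h1, h2, h3⟩ := hp
    obtain ⟨h4, h5, h6⟩ := (zarD_cross_iff i i' j j' h2 h1).mp h3
    simp only [parPairs, coe_product, coe_filter, mem_univ, true_and, Set.mem_prod,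
      Set.mem_setOf_eq]
    exact ⟨⟨h5, h6⟩, h1, h4⟩
  · rintro ⟨⟨i', i⟩, ⟨j, j'⟩⟩ hq
    simp only [parPairs, coe_product, coe_filter, mem_univ, true_and, Set.mem_prod,
      Set.mem_setOf_eq] at hq
    obtain ⟨⟨h5, h6⟩, h1, h4⟩ := hq
    have h1' : j < j' := h1
    have h2 : i ≠ i' := fun e => by rw [e] at h5; exact lt_irrefl _ h5
    simp only [RectDrawing.crossSet, coe_filter, mem_univ, true_and, Set.mem_setOf_eq]
    exact ⟨h1', h2, (zarD_cross_iff i i' j j' h2 h1').mpr ⟨h4, h5, h6⟩⟩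
  · rintro ⟨⟨i, j⟩, ⟨i', j'⟩⟩ _; rfl
  · rintro ⟨⟨i', i⟩, ⟨j, j'⟩⟩ _; rfl

/-- the bound `⌊m/2⌋ ⌊(m-1)/2⌋ ⌊n/2⌋ ⌊(n-1)/2⌋` is attained by a rectilinear drawing -/
theorem exists_tight (m n : ℕ) :
    ∃ D : RectDrawing m n, D.crossings = (m / 2) * ((m - 1) / 2) * ((n / 2) * ((n - 1) / 2)) :=
  ⟨zarD m n, zarD_crossings m n⟩

end Vale.Agent.P040.Rect
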