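import Vale.Agent.P040.Rect.Rank

/-!
# Rectilinear Zarankiewicz: variation along a monotone family of arrangements (rows V1 - V6)

`c : ℝ → ℕ → ℤ` is a family of arrangements (keys) in which every pair changes its order at most
once (`Betw`).  Then the sum over the rows `i` of the three-point variations of `NN k (c ·) i` is at
most the number of discordant pairs of the two ends.
-/

namespace Vale.Agent.P040.Rect

open Finset Vale.Agent.P040.All

/-- every pair changes its order at most once along the family -/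
def Betw (n : ℕ) (c : ℝ → ℕ → ℤ) : Prop :=
  ∀ s₁ s₂ s₃ : ℝ, s₁ ≤ s₂ → s₂ ≤ s₃ → ∀ x y : ℕ, x < y → y < n →
    (c s₁ x < c s₁ y ↔ c s₃ x < c s₃ y) → (c s₁ x < c s₁ y ↔ c s₂ x < c s₂ y)

variable {n k : ℕ} {c : ℝ → ℕ → ℤ}

/-- (V1) `Disc (c s₁) (c s₂)` and `Disc (c s₂) (c s₃)` are disjoint subsets of `Disc (c s₁) (c s₃)`
(propositional logic from `Betw` at the pair; `card_union_of_disjoint`, `card_le_card`). -/
lemma disc_add_le (h : Betw n c) {s₁ s₂ s₃ : ℝ} (h₁ : s₁ ≤ s₂) (h₂ : s₂ ≤ s₃) :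
    (Disc n (c s₁) (c s₂)).card + (Disc n (c s₂) (c s₃)).card ≤ (Disc n (c s₁) (c s₃)).card := by
  have hd : Disjoint (Disc n (c s₁) (c s₂)) (Disc n (c s₂) (c s₃)) := by
    rw [Finset.disjoint_left]
    intro q hq1 hq2
    simp only [Disc, mem_filter, mem_product, mem_range] at hq1 hq2
    have := h s₁ s₂ s₃ h₁ h₂ q.1 q.2 hq1.2.1 hq1.1.2
    have a1 := hq1.2.2
    have a2 := hq2.2.2
    by_cases b1 : c s₁ q.1 < c s₁ q.2 <;> by_cases b2 : c s₂ q.1 < c s₂ q.2 <;>
      by_cases b3 : c s₃ q.1 < c s₃ q.2 <;> simp [b1, b2, b3] at this a1 a2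
  rw [← card_union_of_disjoint hd]
  apply card_le_card
  intro q hq
  rw [mem_union] at hq
  simp only [Disc, mem_filter, mem_product, mem_range] at hq ⊢
  rcases hq with hq | hq
  · refine ⟨hq.1, hq.2.1, ?_⟩
    have := h s₁ s₂ s₃ h₁ h₂ q.1 q.2 hq.2.1 hq.1.2
    intro h3
    exact hq.2.2 (this h3)
  · refine ⟨hq.1, hq.2.1, ?_⟩
    have := h s₁ s₂ s₃ h₁ h₂ q.1 q.2 hq.2.1 hq.1.2
    intro h3
    exact hq.2.2 ((this h3).symm.trans h3)

/-- the contribution of the row `i`: three-point variation through `σ i` if `i ∈ I`, two-point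
variation otherwise -/
noncomputable def term (k : ℕ) (c : ℝ → ℕ → ℤ) (I : Finset ℕ) (σ : ℕ → ℝ) (lo hi : ℝ) (i : ℕ) : ℤ :=
  if i ∈ I then |(NN k (c lo) i : ℤ) - NN k (c (σ i)) i| + |(NN k (c (σ i)) i : ℤ) - NN k (c hi) i|
  else |(NN k (c lo) i : ℤ) - NN k (c hi) i|

/-- (V2) `I = ∅`: this is `DD_le_disc` (unfold `DD`, `term`). -/
lemma var_empty (hinj : ∀ s, Inj (2 * k + 1) (c s)) (σ : ℕ → ℝ) (lo hi : ℝ) :
    ∑ i ∈ range (2 * k + 1), term k c ∅ σ lo hi i ≤ ((Disc (2 * k + 1) (c lo) (c hi)).card : ℤ) := by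
  have := DD_le_disc (k := k) (hinj lo) (hinj hi)
  simpa [DD, term] using this

/-- (V3) termwise triangle inequality for the splitting at `s = σ i₀`, `i₀ ∈ I`:
cases `i = i₀`, `i ∈ I` with `σ i ≤ s`, `i ∈ I` with `s < σ i`, `i ∉ I`; `abs_sub_le` / `abs` cases
with `omega` or `linarith`. -/
lemma term_split (I : Finset ℕ) (σ : ℕ → ℝ) (lo hi : ℝ) {i₀ : ℕ} (hi₀ : i₀ ∈ I) (i : ℕ) :
    term k c I σ lo hi i ≤
      term k c ((I.erase i₀).filter fun j => σ j ≤ σ i₀) σ lo (σ i₀) i +
      term k c ((I.erase i₀).filter fun j => σ i₀ < σ j) σ (σ i₀) hi i := by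
  unfold term
  by_cases h0 : i = i₀
  · subst h0
    simp [hi₀]
  · by_cases hI : i ∈ I
    · by_cases hs : σ i ≤ σ i₀
      · have hs' : ¬ σ i₀ < σ i := not_lt.2 hs
        simp only [mem_filter, mem_erase, ne_eq, h0, not_false_eq_true, hI, and_self, hs, hs',
          if_true, and_false, if_false, true_and]
        have := abs_sub_le (NN k (c (σ i)) i : ℤ) (NN k (c (σ i₀)) i) (NN k (c hi) i)
        linarith
      · have hs' : σ i₀ < σ i := not_le.1 hs
        simp only [mem_filter, mem_erase, ne_eq, h0, not_false_eq_true, hI, and_self, hs, hs',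
          if_true, and_false, if_false, true_and]
        have := abs_sub_le (NN k (c lo) i : ℤ) (NN k (c (σ i₀)) i) (NN k (c (σ i)) i)
        linarith
    · simp only [mem_filter, mem_erase, hI, and_false, false_and, if_false]
      exact abs_sub_le _ _ _

/-- (V4) **variation lemma.**  Strong induction on `I.card` (generalising `lo`, `hi`): `var_empty` if
`I = ∅`; otherwise pick `i₀ ∈ I`, apply the induction hypothesis to the two filters of V3 on
`[lo, σ i₀]` and `[σ i₀, hi]` (their cards are `< I.card`: `card_filter_le`, `card_erase_lt_of_mem`),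
add, use V3 (`sum_le_sum`, `sum_add_distrib`) and V1. -/
theorem var_le (hinj : ∀ s, Inj (2 * k + 1) (c s)) (hb : Betw (2 * k + 1) c) (σ : ℕ → ℝ) :
    ∀ (N : ℕ) (I : Finset ℕ) (lo hi : ℝ), I.card ≤ N → lo ≤ hi →
      (∀ i ∈ I, lo ≤ σ i ∧ σ i ≤ hi) →
      ∑ i ∈ range (2 * k + 1), term k c I σ lo hi i ≤
        ((Disc (2 * k + 1) (c lo) (c hi)).card : ℤ) := by
  intro N
  induction N with
  | zero =>
    intro I lo hi hc _ _
    have h0 : I = ∅ := Finset.card_eq_zero.mp (Nat.le_zero.mp hc)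
    subst h0
    exact var_empty hinj σ lo hi
  | succ N ih =>
    intro I lo hi hc _ hI
    rcases I.eq_empty_or_nonempty with rfl | ⟨i₀, hi₀⟩
    · exact var_empty hinj σ lo hi
    · have hce : (I.erase i₀).card ≤ N := by
        have := Finset.card_erase_of_mem hi₀
        omega
      have h1 := ih ((I.erase i₀).filter fun j => σ j ≤ σ i₀) lo (σ i₀)
        ((Finset.card_filter_le _ _).trans hce) (hI i₀ hi₀).1 (by
          intro i hi'
          rw [Finset.mem_filter, Finset.mem_erase] at hi'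
          exact ⟨(hI i hi'.1.2).1, hi'.2⟩)
      have h2 := ih ((I.erase i₀).filter fun j => σ i₀ < σ j) (σ i₀) hi
        ((Finset.card_filter_le _ _).trans hce) (hI i₀ hi₀).2 (by
          intro i hi'
          rw [Finset.mem_filter, Finset.mem_erase] at hi'
          exact ⟨hi'.2.le, (hI i hi'.1.2).2⟩)
      have h3 := disc_add_le hb (hI i₀ hi₀).1 (hI i₀ hi₀).2
      calc ∑ i ∈ range (2 * k + 1), term k c I σ lo hi i
          ≤ ∑ i ∈ range (2 * k + 1),
              (term k c ((I.erase i₀).filter fun j => σ j ≤ σ i₀) σ lo (σ i₀) i +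
                term k c ((I.erase i₀).filter fun j => σ i₀ < σ j) σ (σ i₀) hi i) :=
            Finset.sum_le_sum fun i _ => term_split I σ lo hi hi₀ i
        _ = ∑ i ∈ range (2 * k + 1),
              term k c ((I.erase i₀).filter fun j => σ j ≤ σ i₀) σ lo (σ i₀) i +
            ∑ i ∈ range (2 * k + 1),
              term k c ((I.erase i₀).filter fun j => σ i₀ < σ j) σ (σ i₀) hi i :=
            Finset.sum_add_distrib
        _ ≤ ((Disc (2 * k + 1) (c lo) (c (σ i₀))).card : ℤ) +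
            ((Disc (2 * k + 1) (c (σ i₀)) (c hi)).card : ℤ) := add_le_add h1 h2
        _ ≤ ((Disc (2 * k + 1) (c lo) (c hi)).card : ℤ) := by exact_mod_cast h3

end Vale.Agent.P040.Rect
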